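import Vale.Agent.P027M.K.Weil

/-!
# Block K, file 5: adjointness, semilinear equivariance, nondegeneracy (on functions)
-/

set_option linter.unusedSectionVars false

namespace P027M.K

open Vale.Agent.P019P P025H492 P025H816 Polynomial IntermediateField

universe u

section loc

variable {k F : Type u} [Field k] [Field F] [Algebra k F] [CFF k F]

theorem w_split {n : ℕ} (hn : n ≠ 0) {P : Plk k F} {u g : Fˣ} (x : Fˣ) (a : ℤ) {b : ℤ}
    (hu : ord P (u : F) = 0) (hb : ord P (g : F) = n * b) :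
    w n P (u * x ^ ((n : ℤ) * a)) g = a • w 1 P x g + b • lc P u := by
  rw [w_eq hn (a := a * ord P (x : F)) (by rw [ou_mul, ou_zpow, hu]; ring) hb, w_one, hb, lc_mul,
    lc_zpow]
  module

theorem exists_split {n : ℕ} (P : Plk k F) {f : Fˣ} (hf : f ∈ divU k F n) :
    ∃ (u : Fˣ) (a : ℤ), ord P (u : F) = 0 ∧ f = u * un P ^ ((n : ℤ) * a) := by
  obtain ⟨a, ha⟩ := hf P
  exact ⟨_, a, ord_nrm P f, by rw [mul_assoc, ← zpow_add, ha]; simp⟩

end loc

section ext

variable {k K L : Type u} [Field k] [Field K] [Field L] [Algebra k K] [Algebra k L]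
  [Algebra K L] [IsScalarTower k K L] [CFF k K] [CFF k L] [FiniteDimensional K L]

theorem jU_mem {n : ℕ} {f : Kˣ} (hf : f ∈ divU k K n) : jU L f ∈ divU k L n := fun Q => by
  rw [ord_jU]
  exact (hf _).mul_left _

theorem nU_mem {n : ℕ} {g : Lˣ} (hg : g ∈ divU k L n) : nU K g ∈ divU k K n := fun P => by
  rw [ord_nU]
  exact Finset.dvd_sum fun Q _ => hg Q

theorem nU_jU (f : Kˣ) : nU K (jU L f) = f ^ Module.finrank K L := by
  ext
  rw [nU_val, jU_val, Algebra.norm_algebraMap, Units.val_pow_eq_pow_val]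

/-- **adjointness** of the inclusion and the norm -/
theorem e_adj {n : ℕ} (hn : n ≠ 0) {f : Kˣ} {g : Lˣ} (hf : f ∈ divU k K n)
    (hg : g ∈ divU k L n) : e k n (jU L f) g = e k n f (nU K g) := by
  rw [e, e, finsum_fib K _ (w_finite n _ _)]
  refine finsum_congr fun P => ?_
  obtain ⟨u, a, hu, rfl⟩ := exists_split P hf
  choose b hb using fun Q : Plk k L => hg Q
  rw [w_split hn _ a hu (b := ∑ Q ∈ fib L P, b Q)
    (by rw [ord_nU, Finset.mul_sum]; exact Finset.sum_congr rfl fun Q _ => hb Q),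
    proj, zsmul_sum', zsum_smul, ← Finset.sum_add_distrib]
  refine Finset.sum_congr rfl fun Q hQ => ?_
  obtain rfl := mem_over.1 hQ
  rw [map_mul, map_zpow, w_split hn _ a (by rw [ord_jU, hu, mul_zero]) (hb Q), lc_jU hu]

theorem nondeg_loc {n : ℕ} (hn : n ≠ 0) (P : Plk k K) {u : Kˣ} (hu : ord P (u : K) = 0) (a : ℤ)
    {v h : Lˣ} (hv : v ^ n = jU L u) (D E : Plk k L → ℤ)
    (hh : ∀ Q, ord Q (h : L) = D Q - n * E Q) (hD : ∑ Q ∈ fib L P, D Q = 0) :
    ∑ Q ∈ fib L P, w 1 Q (v * jU L (un P) ^ a) h =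
      w n P (u * un P ^ ((n : ℤ) * a)) (nU K h) + ∑ Q ∈ fib L P, D Q • lc Q v := by
  have hn' : (n : ℤ) ≠ 0 := by exact_mod_cast hn
  rw [w_split hn _ a hu (b := ∑ Q ∈ fib L P, -E Q) (by
      rw [ord_nU, Finset.sum_congr rfl fun Q _ => hh Q, Finset.sum_sub_distrib, hD,
        Finset.mul_sum, zero_sub, ← Finset.sum_neg_distrib]
      exact Finset.sum_congr rfl fun Q _ => by ring),
    proj, zsmul_sum', zsum_smul, ← Finset.sum_add_distrib, ← Finset.sum_add_distrib]
  refine Finset.sum_congr rfl fun Q hQ => ?_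
  obtain rfl := mem_over.1 hQ
  have h1 : ord Q (v : L) = 0 := by
    have h2 := ou_pow Q v n
    rw [hv, ord_jU, hu, mul_zero] at h2
    exact (mul_eq_zero.1 h2.symm).resolve_left hn'
  have h2 : (n : ℤ) • lc Q v = lc (down K Q) u := by rw [← lc_pow, hv, lc_jU hu]
  rw [w1_mul_left, w1_zpow_left, w_one Q v, h1, hh, ← h2]
  module

theorem Val.conj {Q : Plk k L} {z : L} {c : k} (h : Val Q z c) (σ : L ≃ₐ[K] L) :
    Val (conj k σ Q) (σ z) c := by
  unfold Val at *
  have h1 : σ z - algebraMap k L c = σ (z - algebraMap k L c) := by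
    rw [map_sub, IsScalarTower.algebraMap_apply k K L, AlgEquiv.commutes]
  rw [h1]
  rcases mem_Mge.1 h with h | h
  · rw [h, map_zero]; exact zero_mem _
  · exact mem_Mge.2 (Or.inr (by rwa [ord_conj]))

theorem nondeg_aux {n : ℕ} (hn : (n : k) ≠ 0) {f : Kˣ} (hf : f ∈ divU k K n) {φ : Lˣ}
    (hφ : φ ^ n = jU L f) (σ : L ≃ₐ[K] L) {ζ : kˣ} (hσ : σ φ = algebraMap k L ζ * φ) :
    ∃ g ∈ divU k K n, e k n f g = -Additive.ofMul ζ := by
  classical
  have hn0 : n ≠ 0 := by
    rintro rfl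
    simp at hn
  have hn' : (n : ℤ) ≠ 0 := by exact_mod_cast hn0
  obtain ⟨Q0⟩ := nonempty_Plk k L
  set D : Plk k L →₀ ℤ := Finsupp.single Q0 1 - Finsupp.single (conj k σ Q0) 1 with hD
  obtain ⟨h0, E, hh0, -, hdv⟩ := exists_dv (F := L) hn (D := D)
    (by rw [hD, map_sub, dg_sgl, dg_sgl, sub_self])
  let h : Lˣ := Units.mk0 h0 hh0
  have hh : ∀ Q, ord Q (h : L) = D Q - n * E Q := fun Q => by
    have := DFunLike.congr_fun hdv Q
    rwa [dv_apply, Finsupp.sub_apply, Finsupp.smul_apply, nsmul_eq_mul] at this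
  have hD0 : ∀ P : Plk k K, ∑ Q ∈ fib L P, D Q = 0 := fun P => by
    rw [← push_apply, hD, map_sub, push_single, push_single, down_conj, sub_self,
      Finsupp.zero_apply]
  have hloc : ∀ P : Plk k K, ∑ Q ∈ fib L P, w 1 Q φ h =
      w n P f (nU K h) + if P = down K Q0 then Additive.ofMul ζ else 0 := by
    intro P
    obtain ⟨u, a, hu, hfu⟩ := exists_split P hf
    have hv : (φ / jU L (un P) ^ a) ^ n = jU L u := by
      rw [div_pow, hφ, hfu, map_mul, map_zpow, ← zpow_natCast, ← zpow_mul, mul_comm a,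
        mul_div_cancel_right]
    have h1 := nondeg_loc hn0 P hu a hv D E hh (hD0 P)
    rw [div_mul_cancel, ← hfu] at h1
    rw [h1]
    congr 1
    set v := φ / jU L (un P) ^ a with hvdef
    simp only [hD, Finsupp.sub_apply, sub_smul, Finset.sum_sub_distrib, Finsupp.single_apply,
      ite_smul, one_smul, zero_smul, Finset.sum_ite_eq, mem_over, down_conj]
    by_cases hP : P = down K Q0
    · rw [if_pos hP.symm, if_pos hP.symm, if_pos hP]
      have h2 : ord Q0 (v : L) = 0 := by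
        have h3 := ou_pow Q0 v n
        rw [hv, ord_jU, ← hP, hu, mul_zero] at h3
        exact (mul_eq_zero.1 h3.symm).resolve_left hn'
      have h3 := (lc_val h2).conj σ
      have h4 : σ (v : L) = ((cU L ζ * v : Lˣ) : L) := by
        rw [hvdef, Units.val_mul, Units.val_div_eq_div_val, map_div₀, hσ,
          Units.val_zpow_eq_zpow_val, map_zpow₀, jU_val, AlgEquiv.commutes, cU_val, mul_div_assoc]
      rw [h4] at h3
      have h5 := lc_eq h3
      rw [lc_mul, lc_cU, ofMul_toMul] at h5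
      rw [← h5, add_sub_cancel_right]
    · rw [if_neg (Ne.symm hP), if_neg (Ne.symm hP), if_neg hP, sub_self]
  refine ⟨nU K h, fun P => ?_, ?_⟩
  · rw [ord_nU, Finset.sum_congr rfl fun Q _ => hh Q, Finset.sum_sub_distrib, hD0, zero_sub,
      ← Finset.mul_sum, dvd_neg]
    exact Dvd.intro _ rfl
  · have h1 := weil (k := k) φ h
    rw [e, finsum_fib K _ (w_finite 1 _ _), finsum_congr hloc,
      finsum_add_distrib (w_finite n _ _) ((Set.finite_singleton (down K Q0)).subset fun P hP => by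
        by_contra hc
        exact hP (if_neg hc)),
      finsum_eq_single _ (down K Q0) fun P hP => if_neg hP, if_pos rfl] at h1
    exact eq_neg_of_add_eq_zero_left h1

end ext

section nondeg

variable {k F : Type u} [Field k] [Field F] [Algebra k F] [CFF k F]

theorem const_of_pow_eq_one {n : ℕ} (hn : n ≠ 0) {z : F} (h : z ^ n = 1) :
    ∃ a : k, z = algebraMap k F a := by
  have hz : z ≠ 0 := by
    rintro rfl
    rw [zero_pow hn] at h
    exact zero_ne_one h
  refine (dv_eq_zero_iff hz).1 (Finsupp.ext fun P => ?_)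
  have h1 := ord_pow P z n
  rw [h, ord_one] at h1
  rw [dv_apply]
  exact (mul_eq_zero.1 h1.symm).resolve_left (by exact_mod_cast hn)

/-- **nondegeneracy** -/
theorem nondeg {n : ℕ} (hn : (n : k) ≠ 0) {f : Fˣ} (hf : f ∈ divU k F n)
    (h : ∀ g ∈ divU k F n, e k n f g = 0) : f ∈ powU F n := by
  have hn0 : n ≠ 0 := by
    rintro rfl
    simp at hn
  have hnF : (n : F) ≠ 0 := by
    rw [← map_natCast (algebraMap k F) n]
    exact (_root_.map_ne_zero _).2 hn
  let L := (X ^ n - C (f : F)).SplittingField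
  have : IsScalarTower k F L := inferInstance
  have : CFF k L := cff_of_finite (K := F)
  have : IsGalois F L :=
    IsGalois.of_separable_splitting_field (separable_X_pow_sub_C (f : F) hnF f.ne_zero)
  obtain ⟨y, hy⟩ : ∃ y : L, y ^ n = algebraMap F L f := by
    have hs := SplittingField.splits (X ^ n - C (f : F) : F[X])
    obtain ⟨y, hy⟩ := hs.exists_eval_eq_zero (by
      rw [degree_map, degree_X_pow_sub_C (Nat.pos_of_ne_zero hn0)]
      exact_mod_cast hn0)
    refine ⟨y, ?_⟩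
    rw [eval_map, eval₂_sub, eval₂_X_pow, eval₂_C, sub_eq_zero] at hy
    exact hy
  have hy0 : y ≠ 0 := by
    rintro rfl
    rw [zero_pow hn0, eq_comm, map_eq_zero] at hy
    exact f.ne_zero hy
  have hfix : ∀ σ : L ≃ₐ[F] L, σ y = y := by
    intro σ
    obtain ⟨a, ha⟩ := const_of_pow_eq_one (k := k) hn0 (z := σ y / y) (by
      rw [div_pow, ← map_pow, hy, AlgEquiv.commutes, div_self]
      rw [← hy]; exact pow_ne_zero _ hy0)
    rw [div_eq_iff hy0] at ha
    have ha0 : a ≠ 0 := by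
      rintro rfl
      rw [map_zero, zero_mul, map_eq_zero] at ha
      exact hy0 ha
    obtain ⟨g, hg, hge⟩ := nondeg_aux hn hf (φ := Units.mk0 y hy0) (Units.ext hy) σ
      (ζ := Units.mk0 a ha0) ha
    rw [h g hg, eq_comm, neg_eq_zero, ofMul_eq_zero, Units.ext_iff] at hge
    have h1 : a = 1 := hge
    rw [ha, h1, map_one, one_mul]
  obtain ⟨z, hz⟩ := (IsGalois.mem_range_algebraMap_iff_fixed y).2 hfix
  rw [mem_powU']
  refine ⟨z, (algebraMap F L).injective ?_⟩
  rw [map_pow, hz, hy]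

end nondeg

section semi

variable {k F k' F' : Type u} [Field k] [Field F] [Algebra k F] [CFF k F]
  [Field k'] [Field F'] [Algebra k' F'] [CFF k' F']

/-- a ring isomorphism on units -/
def mU (s : F ≃+* F') : Fˣ →* F'ˣ := Units.map (s : F →* F')

theorem mU_val (s : F ≃+* F') (f : Fˣ) : ((mU s f : F'ˣ) : F') = s f := rfl

/-- a ring isomorphism on units, additively -/
def aU (s : k ≃+* k') : Additive kˣ →+ Additive k'ˣ := MonoidHom.toAdditive (mU s)

theorem aU_ofMul (s : k ≃+* k') (c : kˣ) : aU s (Additive.ofMul c) = Additive.ofMul (mU s c) := rfl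

theorem aU_sg (s : k ≃+* k') : aU s (sg k) = sg k' := by
  rw [sg, aU_ofMul, sg]
  congr 1
  ext
  simp [mU_val]

variable {s : F ≃+* F'} {s₀ : k ≃+* k'}
  (hs : ∀ a, s (algebraMap k F a) = algebraMap k' F' (s₀ a))

theorem Val.semi {P : Plk k F} {z : F} {c : k} (h : Val P z c) :
    Val (plEquiv s s₀ hs P) (s z) (s₀ c) := by
  unfold Val at *
  rw [← hs, ← map_sub]
  rcases mem_Mge.1 h with h | h
  · rw [h, map_zero]; exact zero_mem _
  · exact mem_Mge.2 (Or.inr (by rwa [ord_plEquiv]))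

theorem lc_semi {P : Plk k F} {u : Fˣ} (h : ord P (u : F) = 0) :
    lc (plEquiv s s₀ hs P) (mU s u) = aU s₀ (lc P u) :=
  lc_eq (c := mU s₀ (lc P u).toMul) ((lc_val h).semi hs)

include hs in
theorem mU_mem {n : ℕ} {f : Fˣ} (hf : f ∈ divU k F n) : mU s f ∈ divU k' F' n := fun Q => by
  obtain ⟨P, rfl⟩ := (plEquiv s s₀ hs).surjective Q
  rw [mU_val, ord_plEquiv]
  exact hf P

theorem w_semi {n : ℕ} (hn : n ≠ 0) (P : Plk k F) {f g : Fˣ} (hf : f ∈ divU k F n)
    (hg : g ∈ divU k F n) :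
    w n (plEquiv s s₀ hs P) (mU s f) (mU s g) = aU s₀ (w n P f g) := by
  obtain ⟨a, ha⟩ := hf P
  obtain ⟨b, hb⟩ := hg P
  have h1 := lc_semi hs (P := P) (u := f ^ b / g ^ a)
    (by rw [ou_div, ou_zpow, ou_zpow, ha, hb]; ring)
  rw [_root_.map_div, map_zpow, map_zpow, lc_div, lc_div, lc_zpow, lc_zpow, lc_zpow, lc_zpow] at h1
  rw [w_eq hn ha hb, w_eq hn (a := a) (b := b) (by rw [mU_val, ord_plEquiv, ha])
    (by rw [mU_val, ord_plEquiv, hb]), add_sub_assoc, add_sub_assoc, h1, map_add, map_zsmul, aU_sg]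

include hs in
/-- **semilinear equivariance** -/
theorem e_semi {n : ℕ} (hn : n ≠ 0) {f g : Fˣ} (hf : f ∈ divU k F n) (hg : g ∈ divU k F n) :
    e k' n (mU s f) (mU s g) = aU s₀ (e k n f g) := by
  rw [e, e, (aU s₀).map_finsum (w_finite n f g), ← finsum_comp_equiv (plEquiv s s₀ hs)]
  exact finsum_congr fun P => w_semi hs hn P hf hg

end semi

end P027M.K
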