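import Mathlib
import Vale.Agent.P025.R2.H816.Pic

/-!
# Block K, file 6: the Tate module of an abelian group
-/

set_option linter.unusedSectionVars false

namespace P027M.K

open P025H816

variable (l : ℕ) [hl : Fact l.Prime] (A : Type*) [AddCommGroup A]

/-- compatible sequences of `l`-power torsion elements -/
def TMs : AddSubgroup (ℕ → A) where
  carrier := {x | x 0 = 0 ∧ ∀ r, l • x (r + 1) = x r}
  zero_mem' := ⟨rfl, fun _ => smul_zero _⟩
  add_mem' {x y} hx hy := ⟨by rw [Pi.add_apply, hx.1, hy.1, add_zero], fun r => by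
    rw [Pi.add_apply, Pi.add_apply, smul_add, hx.2, hy.2]⟩
  neg_mem' {x} hx := ⟨by rw [Pi.neg_apply, hx.1, neg_zero], fun r => by
    rw [Pi.neg_apply, Pi.neg_apply, smul_neg, hx.2]⟩

/-- the Tate module -/
def TM : Type _ := TMs l A

instance : AddCommGroup (TM l A) := inferInstanceAs (AddCommGroup (TMs l A))

variable {l A}

namespace TM

/-- the component of level `r` -/
def cp (r : ℕ) : TM l A →+ A where
  toFun x := x.1 r
  map_zero' := rfl
  map_add' _ _ := rfl

/-- constructor -/
def mk (x : ℕ → A) (h0 : x 0 = 0) (h : ∀ r, l • x (r + 1) = x r) : TM l A := ⟨x, h0, h⟩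

@[simp] theorem cp_mk (x : ℕ → A) (h0 : x 0 = 0) (h : ∀ r, l • x (r + 1) = x r) (r : ℕ) :
    cp r (mk x h0 h : TM l A) = x r := rfl

theorem ext {x y : TM l A} (h : ∀ r, cp r x = cp r y) : x = y := Subtype.ext (funext h)

theorem cp_zero (x : TM l A) : cp 0 x = 0 := x.2.1

theorem cp_succ (x : TM l A) (r : ℕ) : l • cp (r + 1) x = cp r x := x.2.2 r

theorem cp_add (x : TM l A) (r s : ℕ) : l ^ s • cp (r + s) x = cp r x := by
  induction s with
  | zero => rw [pow_zero, one_smul, add_zero]
  | succ s ih => rw [pow_succ, mul_smul, ← add_assoc, cp_succ, ih]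

theorem pow_smul_cp (x : TM l A) (r : ℕ) : l ^ r • cp r x = 0 := by
  have h := cp_add x 0 r
  rwa [zero_add, cp_zero] at h

end TM

theorem nsmul_congr {n : ℕ} {a : A} (h : n • a = 0) {i j : ℕ} (hij : (i : ZMod n) = j) :
    i • a = j • a := by
  rw [ZMod.natCast_eq_natCast_iff'] at hij
  rw [← Nat.div_add_mod i n, ← Nat.div_add_mod j n, add_smul, add_smul, mul_comm n, mul_comm n,
    mul_smul, mul_smul, h, smul_zero, smul_zero, hij]

/-- a natural number congruent to `a` modulo `l ^ r` -/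
noncomputable def ap (a : ℤ_[l]) (r : ℕ) : ℕ := (PadicInt.toZModPow r a).val

theorem cast_ap (a : ℤ_[l]) {r s : ℕ} (h : r ≤ s) :
    ((ap a s : ℕ) : ZMod (l ^ r)) = PadicInt.toZModPow r a := by
  have : NeZero (l ^ s) := ⟨pow_ne_zero _ hl.out.ne_zero⟩
  rw [ap, ZMod.natCast_val, PadicInt.cast_toZModPow r s h]

namespace TM

noncomputable instance : SMul ℤ_[l] (TM l A) where
  smul a x := mk (fun r => ap a r • cp r x) (by rw [cp_zero, smul_zero]) fun r => by
    rw [smul_comm, cp_succ]
    exact nsmul_congr (pow_smul_cp x r) (by rw [cast_ap a r.le_succ, cast_ap a le_rfl])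

theorem cp_smul (a : ℤ_[l]) (x : TM l A) (r : ℕ) : cp r (a • x) = ap a r • cp r x := rfl

theorem cp_smul_of {a : ℤ_[l]} {r i : ℕ} (h : (i : ZMod (l ^ r)) = PadicInt.toZModPow r a)
    (x : TM l A) : cp r (a • x) = i • cp r x :=
  nsmul_congr (pow_smul_cp x r) (by rw [cast_ap a le_rfl, h])

noncomputable instance : Module ℤ_[l] (TM l A) where
  one_smul x := ext fun r => by rw [cp_smul_of (i := 1) (by simp), one_smul]
  mul_smul a b x := ext fun r => by
    rw [cp_smul_of (i := ap a r * ap b r)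
      (by rw [Nat.cast_mul, cast_ap a le_rfl, cast_ap b le_rfl, map_mul]), cp_smul, cp_smul,
      mul_smul]
  smul_zero a := ext fun r => by rw [cp_smul, map_zero, smul_zero]
  smul_add a x y := ext fun r => by rw [cp_smul, map_add, map_add, cp_smul, cp_smul, smul_add]
  add_smul a b x := ext fun r => by
    rw [cp_smul_of (i := ap a r + ap b r)
      (by rw [Nat.cast_add, cast_ap a le_rfl, cast_ap b le_rfl, map_add]), map_add, cp_smul,
      cp_smul, add_smul]
  zero_smul x := ext fun r => by rw [cp_smul_of (i := 0) (by simp), zero_smul, map_zero]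

theorem cp_pow_smul (x : TM l A) (r s : ℕ) : cp s ((l : ℤ_[l]) ^ r • x) = l ^ r • cp s x := by
  rw [← Nat.cast_pow, Nat.cast_smul_eq_nsmul, map_nsmul]

/-- the kernel of the component of level `r` -/
theorem cp_eq_zero_iff {x : TM l A} {r : ℕ} :
    cp r x = 0 ↔ ∃ y : TM l A, x = (l : ℤ_[l]) ^ r • y := by
  constructor
  · intro h
    refine ⟨mk (fun s => cp (s + r) x) (by rw [zero_add, h]) fun s => by
      rw [add_right_comm, cp_succ], ext fun s => ?_⟩
    rw [cp_pow_smul, cp_mk, cp_add]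
  · rintro ⟨y, rfl⟩
    rw [cp_pow_smul, pow_smul_cp]

theorem eq_zero_of_pow_smul {x : TM l A} {r : ℕ} (h : (l : ℤ_[l]) ^ r • x = 0) : x = 0 :=
  ext fun s => by rw [← cp_add x s r, ← cp_pow_smul, h, map_zero, map_zero]

instance : Module.IsTorsionFree ℤ_[l] (TM l A) := by
  refine Module.IsTorsionFree.of_smul_eq_zero fun a x h => ?_
  by_cases ha : a = 0
  · exact Or.inl ha
  right
  rw [PadicInt.unitCoeff_spec ha, mul_smul] at h
  exact eq_zero_of_pow_smul (((PadicInt.unitCoeff ha).isUnit.smul_eq_zero).1 h)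

variable {B C : Type*} [AddCommGroup B] [AddCommGroup C]

variable (l) in
/-- functoriality -/
def map (φ : A →+ B) : TM l A →ₗ[ℤ_[l]] TM l B where
  toFun x := mk (fun r => φ (cp r x)) (by rw [cp_zero, map_zero]) fun r => by
    rw [← map_nsmul, cp_succ]
  map_add' x y := ext fun r => by simp
  map_smul' a x := ext fun r => map_nsmul φ (ap a r) (cp r x)

@[simp] theorem cp_map (φ : A →+ B) (x : TM l A) (r : ℕ) : cp r (map l φ x) = φ (cp r x) := rfl

/-- the components are onto the torsion if the torsion is divisible -/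
theorem exists_cp (hdiv : ∀ (r : ℕ) (y : A), l ^ r • y = 0 → ∃ z, l • z = y) {r : ℕ} {y : A}
    (hy : l ^ r • y = 0) : ∃ x : TM l A, cp r x = y := by
  choose! nx hnx using hdiv
  let z : ℕ → A := fun s => Nat.rec y (fun t w => nx (r + t) w) s
  have hz : ∀ s, l ^ (r + s) • z s = 0 := by
    intro s
    induction s with
    | zero => exact hy
    | succ s ih =>
      rw [← add_assoc, pow_succ, mul_smul]
      show l ^ (r + s) • l • nx (r + s) (z s) = 0
      rw [hnx _ _ ih, ih]
  have hz1 : ∀ s, l • z (s + 1) = z s := fun s => hnx _ _ (hz s)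
  have hz2 : ∀ s, l ^ s • z s = y := by
    intro s
    induction s with
    | zero => rw [pow_zero, one_smul]; rfl
    | succ s ih => rw [pow_succ, mul_smul, hz1, ih]
  exact ⟨mk (fun s => l ^ r • z s) hy fun s => by rw [smul_comm, hz1], hz2 r⟩

theorem finite (hdiv : ∀ (r : ℕ) (y : A), l ^ r • y = 0 → ∃ z, l • z = y)
    (hfin : Finite (tors A l)) : Module.Finite ℤ_[l] (TM l A) := by
  classical
  have := Fintype.ofFinite (tors A l)
  have h1 : ∀ a : tors A l, ∃ x : TM l A, cp 1 x = a := fun a =>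
    exists_cp hdiv (by rw [pow_one]; exact a.2)
  choose v hv using h1
  let φ : (tors A l → ℤ_[l]) →ₗ[ℤ_[l]] TM l A := Fintype.linearCombination ℤ_[l] v
  refine Module.Finite.of_surjective φ fun x => ?_
  have h2 : ∀ (r : ℕ) (x : TM l A), ∃ c, cp r (φ c) = cp r x := by
    intro r
    induction r with
    | zero => exact fun x => ⟨0, by rw [cp_zero, cp_zero]⟩
    | succ r ih =>
      intro x
      let a : tors A l := ⟨cp 1 x, by rw [mem_tors, cp_succ, cp_zero]⟩
      obtain ⟨y, hy⟩ := (cp_eq_zero_iff (x := x - v a) (r := 1)).1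
        (by rw [map_sub, hv, sub_self])
      obtain ⟨c, hc⟩ := ih y
      refine ⟨Pi.single a 1 + (l : ℤ_[l]) ^ 1 • c, ?_⟩
      have h3 : φ (Pi.single a 1) = v a := by simp [φ]
      rw [map_add, map_smul, h3, map_add, cp_pow_smul, pow_one, cp_succ, hc,
        sub_eq_iff_eq_add'.1 hy, map_add, cp_pow_smul, pow_one, cp_succ]
  obtain ⟨c, hc⟩ := IsCompact.nonempty_iInter_of_sequence_nonempty_isCompact_isClosed
    (fun r => {c | cp r (φ c) = cp r x})
    (fun r c hc => by
      have h3 : cp (r + 1) (φ c) = cp (r + 1) x := hc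
      show cp r (φ c) = cp r x
      rw [← cp_succ, h3, cp_succ])
    (fun r => h2 r x)
    (by
      have : {c | cp 0 (φ c) = cp 0 x} = Set.univ :=
        Set.eq_univ_of_forall fun c => by show cp 0 _ = cp 0 _; rw [cp_zero, cp_zero]
      rw [this]
      exact isCompact_univ)
    (fun r => by
      rw [← isOpen_compl_iff, Metric.isOpen_iff]
      intro c hc
      have hpos : (0 : ℝ) < (l : ℝ) ^ (-r : ℤ) := zpow_pos (by exact_mod_cast hl.out.pos) _
      refine ⟨_, hpos, fun c' hc' h3 => hc ?_⟩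
      rw [Metric.mem_ball, dist_pi_lt_iff hpos] at hc'
      have h4 : ∀ a, ∃ d, d * (l : ℤ_[l]) ^ r = c' a - c a := fun a => by
        rw [← Ideal.mem_span_singleton', ← PadicInt.norm_le_pow_iff_mem_span_pow, ← dist_eq_norm]
        exact (hc' a).le
      choose d hd using h4
      have h5 : c = c' - (l : ℤ_[l]) ^ r • d := by
        ext a
        rw [Pi.sub_apply, Pi.smul_apply, smul_eq_mul, mul_comm, hd, sub_sub_cancel]
      show cp r (φ c) = cp r x
      rw [h5, map_sub, map_sub, map_smul, cp_pow_smul, pow_smul_cp, sub_zero]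
      exact h3)
  exact ⟨c, ext fun r => Set.mem_iInter.1 hc r⟩

theorem finrank_eq (hdiv : ∀ (r : ℕ) (y : A), l ^ r • y = 0 → ∃ z, l • z = y) {d : ℕ}
    (hc : Nat.card (tors A l) = l ^ d) : Module.finrank ℤ_[l] (TM l A) = d := by
  have hfin : Finite (tors A l) :=
    Nat.finite_of_card_ne_zero (by rw [hc]; exact pow_ne_zero _ hl.out.ne_zero)
  have := finite hdiv hfin
  set n := Module.finrank ℤ_[l] (TM l A)
  let b := (Module.finBasis ℤ_[l] (TM l A)).equivFun
  let p1 : TM l A →+ tors A l := (cp 1).codRestrict _ fun x => by rw [mem_tors, cp_succ, cp_zero]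
  let p2 : TM l A →+ (Fin n → ZMod (l ^ 1)) :=
    ((PadicInt.toZModPow 1 : ℤ_[l] →+* ZMod (l ^ 1)).toAddMonoidHom.compLeft (Fin n)).comp
      b.toAddMonoidHom
  have h1 : Function.Surjective p1 := fun a => by
    obtain ⟨x, hx⟩ := exists_cp hdiv (r := 1) (y := a) (by rw [pow_one]; exact a.2)
    exact ⟨x, Subtype.ext hx⟩
  have h2 : Function.Surjective p2 := fun a => by
    refine ⟨b.symm fun i => ((a i).val : ℤ_[l]), funext fun i => ?_⟩
    have : NeZero (l ^ 1) := ⟨pow_ne_zero _ hl.out.ne_zero⟩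
    show PadicInt.toZModPow 1 (b (b.symm _) i) = a i
    rw [b.apply_symm_apply, map_natCast, ZMod.natCast_zmod_val]
  have h3 : p1.ker = p2.ker := by
    ext x
    rw [AddMonoidHom.mem_ker, AddMonoidHom.mem_ker, Subtype.ext_iff, funext_iff]
    show cp 1 x = 0 ↔ ∀ i, PadicInt.toZModPow 1 (b x i) = 0
    rw [cp_eq_zero_iff]
    constructor
    · rintro ⟨y, rfl⟩ i
      rw [← RingHom.mem_ker, PadicInt.ker_toZModPow, map_smul, Pi.smul_apply, smul_eq_mul]
      exact Ideal.mul_mem_right _ _ (Ideal.mem_span_singleton_self _)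
    · intro h
      have h4 : ∀ i, ∃ c, c * (l : ℤ_[l]) ^ 1 = b x i := fun i => by
        rw [← Ideal.mem_span_singleton', ← PadicInt.ker_toZModPow]
        exact h i
      choose c hc using h4
      refine ⟨b.symm c, b.injective (funext fun i => ?_)⟩
      rw [map_smul, b.apply_symm_apply, Pi.smul_apply, smul_eq_mul, mul_comm, hc]
  have h4 := Nat.card_congr (QuotientAddGroup.quotientKerEquivOfSurjective p1 h1).toEquiv
  have h5 := Nat.card_congr (QuotientAddGroup.quotientKerEquivOfSurjective p2 h2).toEquiv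
  rw [h3, h5, hc, Nat.card_fun, Nat.card_zmod, pow_one, Nat.card_fin] at h4
  exact Nat.pow_right_injective hl.out.two_le h4

/-- the pairing of Tate modules attached to a compatible system of pairings -/
noncomputable def pair (E : ℕ → A → B → C)
    (h1 : ∀ r a a' b, l ^ r • a = 0 → l ^ r • a' = 0 → l ^ r • b = 0 →
      E r (a + a') b = E r a b + E r a' b)
    (h2 : ∀ r a b b', l ^ r • a = 0 → l ^ r • b = 0 → l ^ r • b' = 0 →
      E r a (b + b') = E r a b + E r a b')
    (h3 : ∀ r a b, l ^ (r + 1) • a = 0 → l ^ (r + 1) • b = 0 →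
      l • E (r + 1) a b = E r (l • a) (l • b)) :
    TM l A →ₗ[ℤ_[l]] TM l B →ₗ[ℤ_[l]] TM l C :=
  have hl0 : ∀ r (b : B), l ^ r • b = 0 → E r 0 b = 0 := fun r b hb => by
    have h := h1 r 0 0 b (smul_zero _) (smul_zero _) hb
    rw [add_zero] at h
    exact left_eq_add.1 h
  have hr0 : ∀ r (a : A), l ^ r • a = 0 → E r a 0 = 0 := fun r a ha => by
    have h := h2 r a 0 0 ha (smul_zero _) (smul_zero _)
    rw [add_zero] at h
    exact left_eq_add.1 h
  have hl1 : ∀ r (i : ℕ) a b, l ^ r • a = 0 → l ^ r • b = 0 → E r (i • a) b = i • E r a b := by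
    intro r i a b ha hb
    induction i with
    | zero => rw [zero_smul, zero_smul, hl0 r b hb]
    | succ i ih =>
      rw [succ_nsmul, succ_nsmul, h1 r _ _ _ (by rw [smul_comm, ha, smul_zero]) ha hb, ih]
  have hr1 : ∀ r (i : ℕ) a b, l ^ r • a = 0 → l ^ r • b = 0 → E r a (i • b) = i • E r a b := by
    intro r i a b ha hb
    induction i with
    | zero => rw [zero_smul, zero_smul, hr0 r a ha]
    | succ i ih =>
      rw [succ_nsmul, succ_nsmul, h2 r _ _ _ ha (by rw [smul_comm, hb, smul_zero]) hb, ih]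
  LinearMap.mk₂ ℤ_[l]
    (fun x y => mk (fun r => E r (cp r x) (cp r y))
      (by rw [cp_zero]; exact hl0 0 _ (pow_smul_cp y 0))
      fun r => by rw [h3 r _ _ (pow_smul_cp x _) (pow_smul_cp y _), cp_succ, cp_succ])
    (fun x x' y => ext fun r =>
      h1 r _ _ _ (pow_smul_cp x r) (pow_smul_cp x' r) (pow_smul_cp y r))
    (fun a x y => ext fun r => hl1 r (ap a r) _ _ (pow_smul_cp x r) (pow_smul_cp y r))
    (fun x y y' => ext fun r =>
      h2 r _ _ _ (pow_smul_cp x r) (pow_smul_cp y r) (pow_smul_cp y' r))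
    (fun a x y => ext fun r => hr1 r (ap a r) _ _ (pow_smul_cp x r) (pow_smul_cp y r))

theorem cp_pair (E : ℕ → A → B → C) (h1 h2 h3) (x : TM l A) (y : TM l B) (r : ℕ) :
    cp r (pair E h1 h2 h3 x y) = E r (cp r x) (cp r y) := rfl

end TM

end P027M.K
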