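import Vale.Agent.P027M.K.Pic
import Vale.Agent.P027M.K.Tate

/-!
# Block K, file 8: the Tate module of a function field, its semilinear automorphisms and pairing
-/

set_option linter.unusedSectionVars false

namespace P027M.K

open Vale.Agent.P019P P025H492 P025H816

universe u

section mu

variable (l : ℕ) [hl : Fact l.Prime] (k : Type u) [Field k]

/-- the Tate module of the multiplicative group -/
abbrev Mu : Type u := TM l (Additive kˣ)

theorem mu_div [IsAlgClosed k] (r : ℕ) (y : Additive kˣ) (_ : l ^ r • y = 0) :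
    ∃ z, l • z = y := by
  obtain ⟨z, hz⟩ := IsAlgClosed.exists_pow_nat_eq ((y.toMul : kˣ) : k) hl.out.pos
  have hz0 : z ≠ 0 := by
    rintro rfl
    rw [zero_pow hl.out.ne_zero] at hz
    exact (Units.ne_zero _) hz.symm
  refine ⟨Additive.ofMul (Units.mk0 z hz0), Additive.toMul.injective (Units.ext ?_)⟩
  rw [toMul_nsmul, Units.val_pow_eq_pow_val]
  exact hz

theorem card_mu [IsAlgClosed k] [NeZero (l : k)] : Nat.card (tors (Additive kˣ) l) = l ^ 1 := by
  have : NeZero l := ⟨hl.out.ne_zero⟩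
  rw [pow_one]
  exact (Nat.card_congr (Additive.toMul.subtypeEquiv fun a => Iff.rfl)).trans
    (HasEnoughRootsOfUnity.natCard_rootsOfUnity k l)

theorem finrank_mu [IsAlgClosed k] [NeZero (l : k)] : Module.finrank ℤ_[l] (Mu l k) = 1 :=
  TM.finrank_eq (mu_div l k) (card_mu l k)

theorem nonempty_triv [IsAlgClosed k] [NeZero (l : k)] : Nonempty (Mu l k ≃ₗ[ℤ_[l]] ℤ_[l]) := by
  have : Module.Finite ℤ_[l] (Mu l k) := TM.finite (mu_div l k)
    (Nat.finite_of_card_ne_zero (by rw [card_mu]; exact pow_ne_zero _ hl.out.ne_zero))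
  exact ⟨LinearEquiv.ofFinrankEq _ _ (by rw [finrank_mu, Module.finrank_self])⟩

/-- a trivialisation of `ℤ_l(1)`, depending only on `l` and `k` -/
noncomputable def triv [IsAlgClosed k] [NeZero (l : k)] : Mu l k ≃ₗ[ℤ_[l]] ℤ_[l] :=
  (nonempty_triv l k).some

variable [IsAlgClosed k] [NeZero (l : k)]

theorem map_aU (s : k ≃+* k) (x : Mu l k) :
    TM.map l (aU s) x = triv l k (TM.map l (aU s) ((triv l k).symm 1)) • x := by
  obtain ⟨a, rfl⟩ := (triv l k).symm.surjective x
  apply (triv l k).injective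
  rw [map_smul, LinearEquiv.apply_symm_apply]
  conv_lhs => rw [← mul_one a, ← smul_eq_mul, map_smul, map_smul, map_smul]
  rw [smul_eq_mul, smul_eq_mul, mul_comm]

/-- the cyclotomic character of the automorphisms of `k` -/
noncomputable def cyc0 : (k ≃+* k) →* ℤ_[l]ˣ :=
  MonoidHom.toHomUnits
    { toFun := fun s => triv l k (TM.map l (aU s) ((triv l k).symm 1))
      map_one' := by
        have : TM.map l (aU (1 : k ≃+* k)) ((triv l k).symm 1) = (triv l k).symm 1 :=
          TM.ext fun r => rfl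
        rw [this, LinearEquiv.apply_symm_apply]
      map_mul' := fun s t => by
        have : TM.map l (aU (s * t)) ((triv l k).symm 1) =
            TM.map l (aU s) (TM.map l (aU t) ((triv l k).symm 1)) := TM.ext fun r => rfl
        rw [this, map_aU l k s, map_smul, smul_eq_mul] }

theorem map_aU_eq (s : k ≃+* k) (x : Mu l k) :
    TM.map l (aU s) x = (cyc0 l k s : ℤ_[l]) • x := map_aU l k s x

variable {l k} in
/-- the defining property of the cyclotomic character -/
theorem cyc0_spec (s : k ≃+* k) {r : ℕ} {ζ : k} (h : ζ ^ l ^ r = 1) :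
    s ζ = ζ ^ (PadicInt.toZModPow r (cyc0 l k s : ℤ_[l])).val := by
  have hζ : ζ ≠ 0 := by
    rintro rfl
    rw [zero_pow (pow_ne_zero _ hl.out.ne_zero)] at h
    exact zero_ne_one h
  obtain ⟨x, hx⟩ := TM.exists_cp (mu_div l k) (r := r) (y := Additive.ofMul (Units.mk0 ζ hζ))
    (Additive.toMul.injective (Units.ext (by
      rw [toMul_nsmul, Units.val_pow_eq_pow_val]; exact h)))
  have h1 := congrArg (TM.cp r) (map_aU_eq l k s x)
  rw [TM.cp_map, TM.cp_smul, hx] at h1
  have h2 := congrArg (fun a : Additive kˣ => ((a.toMul : kˣ) : k)) h1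
  simp only [toMul_nsmul, Units.val_pow_eq_pow_val] at h2
  exact h2

end mu

section sl

variable (k F : Type u) [Field k] [Field F] [Algebra k F]

/-- the automorphisms of `F` which induce an automorphism of the constants -/
def SL : Subgroup (F ≃+* F) where
  carrier := {θ | ∃ s : k ≃+* k, ∀ a, θ (algebraMap k F a) = algebraMap k F (s a)}
  one_mem' := ⟨1, fun _ => rfl⟩
  mul_mem' := by
    rintro θ θ' ⟨s, hs⟩ ⟨s', hs'⟩
    exact ⟨s * s', fun a => by rw [RingAut.mul_apply, hs', hs]; rfl⟩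
  inv_mem' := by
    rintro θ ⟨s, hs⟩
    refine ⟨s⁻¹, fun a => θ.injective ?_⟩
    rw [hs]
    exact (θ.apply_symm_apply _).trans (congrArg _ (s.apply_symm_apply a).symm)

variable {k F}

theorem mem_SL {θ : F ≃+* F} :
    θ ∈ SL k F ↔ ∃ s : k ≃+* k, ∀ a, θ (algebraMap k F a) = algebraMap k F (s a) := Iff.rfl

theorem res0_aux {θ : F ≃+* F} {s s' : k ≃+* k}
    (h : ∀ a, θ (algebraMap k F a) = algebraMap k F (s a))
    (h' : ∀ a, θ (algebraMap k F a) = algebraMap k F (s' a)) : s = s' :=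
  RingEquiv.ext fun a => (algebraMap k F).injective ((h a).symm.trans (h' a))

/-- the induced automorphism of the constants -/
noncomputable def res0 : SL k F →* (k ≃+* k) :=
  MonoidHom.mk' (fun θ => (mem_SL.1 θ.2).choose) fun θ θ' =>
    res0_aux (mem_SL.1 (θ * θ').2).choose_spec fun a => by
      rw [Subgroup.coe_mul, RingAut.mul_apply, (mem_SL.1 θ'.2).choose_spec,
        (mem_SL.1 θ.2).choose_spec]
      rfl

theorem res0_spec (θ : SL k F) (a : k) :
    (θ : F ≃+* F) (algebraMap k F a) = algebraMap k F (res0 θ a) :=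
  (mem_SL.1 θ.2).choose_spec a

theorem res0_eq {θ : SL k F} {s : k ≃+* k}
    (h : ∀ a, (θ : F ≃+* F) (algebraMap k F a) = algebraMap k F (s a)) : res0 θ = s :=
  res0_aux (res0_spec θ) h

variable (k) in
/-- automorphisms over a field containing the constants -/
def autSL {K : Type u} [Field K] [Algebra k K] [Algebra K F] [IsScalarTower k K F] :
    (F ≃ₐ[K] F) →* SL k F where
  toFun σ := ⟨σ.toRingEquiv, 1, fun a => (σ.restrictScalars k).commutes a⟩
  map_one' := rfl
  map_mul' _ _ := rfl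

theorem autSL_apply {K : Type u} [Field K] [Algebra k K] [Algebra K F] [IsScalarTower k K F]
    (σ : F ≃ₐ[K] F) (x : F) : ((autSL k σ : SL k F) : F ≃+* F) x = σ x := rfl

theorem res0_autSL {K : Type u} [Field K] [Algebra k K] [Algebra K F] [IsScalarTower k K F]
    (σ : F ≃ₐ[K] F) : res0 (autSL k σ) = 1 :=
  res0_eq fun a => (σ.restrictScalars k).commutes a

variable [CFF k F]

/-- the action on the class group -/
noncomputable def actP (θ : SL k F) : Pc k F →+ Pc k F := semiP (res0_spec θ)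

theorem act_mem (θ : SL k F) {n : ℕ} {f : Fˣ} (hf : f ∈ divU k F n) :
    mU (θ : F ≃+* F) f ∈ divU k F n := mU_mem (res0_spec θ) hf

theorem actP_tP (θ : SL k F) {n : ℕ} (hn : n ≠ 0) {f : Fˣ} (hf : f ∈ divU k F n) :
    actP θ (tP k n f) = tP k n (mU (θ : F ≃+* F) f) := semiP_tP _ hn hf

theorem actP_mul (θ θ' : SL k F) (x : Pc k F) : actP (θ * θ') x = actP θ (actP θ' x) := by
  obtain ⟨D, rfl⟩ := QuotientAddGroup.mk_surjective x
  rw [actP, actP, actP, semiP_mk, semiP_mk, semiP_mk, ← Finsupp.mapDomain_comp]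
  rfl

theorem actP_one (x : Pc k F) : actP (1 : SL k F) x = x := by
  obtain ⟨D, rfl⟩ := QuotientAddGroup.mk_surjective x
  rw [actP, semiP_mk]
  exact congrArg _ Finsupp.mapDomain_id

variable (k F) in
/-- the action on Kummer classes, as endomorphisms -/
noncomputable def actH0 (n : ℕ) : SL k F →* Monoid.End (HK k F n) where
  toFun θ := hkMap (mU (θ : F ≃+* F)) fun _ h => act_mem θ h
  map_one' := MonoidHom.ext fun x => by
    obtain ⟨f, rfl⟩ := QuotientGroup.mk_surjective x
    rfl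
  map_mul' θ θ' := MonoidHom.ext fun x => by
    obtain ⟨f, rfl⟩ := QuotientGroup.mk_surjective x
    rfl

variable (k F) in
/-- the action on Kummer classes -/
noncomputable def actH (n : ℕ) : SL k F →* MulAut (HK k F n) :=
  MonoidHom.mk' (fun θ =>
    { actH0 k F n θ with
      invFun := actH0 k F n θ⁻¹
      left_inv := fun x => by
        show (actH0 k F n θ⁻¹ * actH0 k F n θ) x = x
        rw [← map_mul, inv_mul_cancel, map_one]; rfl
      right_inv := fun x => by
        show (actH0 k F n θ * actH0 k F n θ⁻¹) x = x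
        rw [← map_mul, mul_inv_cancel, map_one]; rfl })
    fun θ θ' => MulEquiv.ext fun x => by
      show actH0 k F n (θ * θ') x = (actH0 k F n θ * actH0 k F n θ') x
      rw [map_mul]

theorem actH_mk {n : ℕ} (θ : SL k F) (f : divU k F n) :
    actH k F n θ (QuotientGroup.mk f) =
      QuotientGroup.mk ⟨mU (θ : F ≃+* F) f, act_mem (F := F) θ f.2⟩ := rfl

theorem hkP_actH {n : ℕ} (hn : n ≠ 0) (θ : SL k F) (x : HK k F n) :
    (hkP hn (Additive.ofMul (actH k F n θ x)) : Pc k F) = actP θ (hkP hn (Additive.ofMul x)) := by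
  obtain ⟨f, rfl⟩ := QuotientGroup.mk_surjective x
  rw [actH_mk, hkP_mk, hkP_mk, actP_tP θ hn f.2]

theorem eP_act (θ : SL k F) {n : ℕ} (hn : n ≠ 0) {x y : Pc k F} (hx : n • x = 0)
    (hy : n • y = 0) : eP n (actP θ x) (actP θ y) = aU (res0 θ) (eP n x y) := eP_semi _ hn hx hy

theorem eH_act (θ : SL k F) {n : ℕ} (hn : n ≠ 0) (x y : HK k F n) :
    eH hn (actH k F n θ x) (actH k F n θ y) = mU (res0 θ) (eH hn x y) := by
  rw [eH_apply, eH_apply, hkP_actH, hkP_actH, eP_act θ hn (hkP hn _).2 (hkP hn _).2]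
  rfl

end sl

section tt

variable (l : ℕ) [hl : Fact l.Prime] (k F : Type u) [Field k] [Field F] [Algebra k F] [CFF k F]

/-- **the Tate module** -/
abbrev TT : Type u := TM l (Pc k F)

theorem lp_ne (r : ℕ) : l ^ r ≠ 0 := pow_ne_zero _ hl.out.ne_zero

variable {l k F} in
theorem exists_cp_tP (x : TT l k F) (r : ℕ) :
    ∃ f ∈ divU k F (l ^ r), tP k (l ^ r) f = TM.cp r x :=
  exists_tP (lp_ne l r) (TM.pow_smul_cp x r)

/-- the action on the Tate module -/
noncomputable def act : SL k F →* (TT l k F ≃ₗ[ℤ_[l]] TT l k F) :=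
  MonoidHom.mk' (fun θ => LinearEquiv.ofLinearMap (TM.map l (actP θ)) (TM.map l (actP θ⁻¹))
    (LinearMap.ext fun x => TM.ext fun r => by
      show actP θ (actP θ⁻¹ _) = _
      rw [← actP_mul, mul_inv_cancel, actP_one]; rfl)
    (LinearMap.ext fun x => TM.ext fun r => by
      show actP θ⁻¹ (actP θ _) = _
      rw [← actP_mul, inv_mul_cancel, actP_one]; rfl))
    fun θ θ' => LinearEquiv.ext fun x => TM.ext fun r => actP_mul θ θ' _

variable {l k F} in
theorem cp_act (θ : SL k F) (x : TT l k F) (r : ℕ) :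
    TM.cp r (act l k F θ x) = actP θ (TM.cp r x) := rfl

/-- reduction to the Kummer classes of level `l ^ r` -/
noncomputable def red (r : ℕ) : TT l k F →+ Additive (HK k F (l ^ r)) :=
  (hkP (lp_ne l r)).symm.toAddMonoidHom.comp
    ((TM.cp r).codRestrict _ fun x => TM.pow_smul_cp x r)

variable {l k F}

theorem hkP_red (r : ℕ) (x : TT l k F) :
    (hkP (lp_ne l r) (red l k F r x) : Pc k F) = TM.cp r x :=
  congrArg Subtype.val ((hkP (lp_ne l r)).apply_symm_apply _)

theorem red_eq_iff {r : ℕ} {x : TT l k F} {y : Additive (HK k F (l ^ r))} :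
    red l k F r x = y ↔ TM.cp r x = (hkP (lp_ne l r) y : Pc k F) := by
  rw [← hkP_red, ← Subtype.ext_iff, (hkP (lp_ne l r)).apply_eq_iff_eq]

theorem red_eq_mk_iff {r : ℕ} {x : TT l k F} {f : divU k F (l ^ r)} :
    red l k F r x = Additive.ofMul (QuotientGroup.mk f) ↔ TM.cp r x = tP k (l ^ r) (f : Fˣ) := by
  rw [red_eq_iff, hkP_mk]

theorem red_eq_zero_iff {r : ℕ} {x : TT l k F} :
    red l k F r x = 0 ↔ ∃ y : TT l k F, x = (l : ℤ_[l]) ^ r • y := by
  rw [red_eq_iff, map_zero, ← TM.cp_eq_zero_iff]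
  rfl

theorem red_act (θ : SL k F) (r : ℕ) (x : TT l k F) : red l k F r (act l k F θ x) =
    Additive.ofMul (actH k F (l ^ r) θ (red l k F r x).toMul) := by
  rw [red_eq_iff, hkP_actH, ofMul_toMul, hkP_red, cp_act]

theorem red_smul (a : ℤ_[l]) (r : ℕ) (x : TT l k F) :
    red l k F r (a • x) = (PadicInt.toZModPow r a).val • red l k F r x := by
  rw [red_eq_iff, map_nsmul, AddSubgroup.coe_nsmul, hkP_red]
  rfl

theorem divU_succ {r : ℕ} {f : Fˣ} (hf : f ∈ divU k F (l ^ (r + 1))) : f ∈ divU k F (l ^ r) := by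
  rw [pow_succ'] at hf
  exact divU_mul_le _ _ hf

/-- compatibility of the reductions -/
theorem red_succ {r : ℕ} {x : TT l k F} {f : divU k F (l ^ (r + 1))}
    (h : red l k F (r + 1) x = Additive.ofMul (QuotientGroup.mk f)) :
    red l k F r x = Additive.ofMul (QuotientGroup.mk ⟨f, divU_succ (F := F) f.2⟩) := by
  rw [red_eq_mk_iff] at h ⊢
  rw [← TM.cp_succ, h]
  have h1 := tP_level (k := k) hl.out.ne_zero (lp_ne l r) (f := (f : Fˣ))
    (by rw [← pow_succ']; exact f.2)
  rwa [← pow_succ'] at h1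

variable [NeZero (l : k)]

theorem lp_cast (r : ℕ) : ((l ^ r : ℕ) : k) ≠ 0 := by
  rw [Nat.cast_pow]
  exact pow_ne_zero _ (NeZero.ne _)

theorem tt_div (r : ℕ) (y : Pc k F) (h : l ^ r • y = 0) : ∃ z, l • z = y :=
  pic_div (NeZero.ne _) (lp_ne l r) h

instance : Module.Finite ℤ_[l] (TT l k F) := TM.finite tt_div
  (Nat.finite_of_card_ne_zero (by
    rw [card_pic_tors (NeZero.ne _)]; exact pow_ne_zero _ hl.out.ne_zero))

instance : Module.Free ℤ_[l] (TT l k F) := inferInstance

variable (l k F) in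
/-- **the rank of the Tate module** -/
theorem finrank_TT : Module.finrank ℤ_[l] (TT l k F) = 2 * gen k F :=
  TM.finrank_eq tt_div (card_pic_tors (NeZero.ne _))

theorem exists_cp_eq {r : ℕ} {y : Pc k F} (h : l ^ r • y = 0) : ∃ x : TT l k F, TM.cp r x = y :=
  TM.exists_cp tt_div h

theorem red_surjective (r : ℕ) : Function.Surjective (red l k F r) := fun y => by
  obtain ⟨x, hx⟩ := exists_cp_eq (l := l) (hkP (lp_ne l r) y).2
  exact ⟨x, red_eq_iff.2 hx⟩

variable (l k F) in
/-- the pairing with values in `ℤ_l(1)` -/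
noncomputable def eM : TT l k F →ₗ[ℤ_[l]] TT l k F →ₗ[ℤ_[l]] Mu l k :=
  TM.pair (fun r => eP (l ^ r)) (fun r _ _ _ => eP_add_left (lp_ne l r))
    (fun r _ _ _ => eP_add_right (lp_ne l r)) fun r a b ha hb => by
      rw [pow_succ'] at ha hb ⊢
      exact eP_level hl.out.ne_zero (lp_ne l r) ha hb

theorem cp_eM (x y : TT l k F) (r : ℕ) :
    TM.cp r (eM l k F x y) = eP (l ^ r) (TM.cp r x) (TM.cp r y) := rfl

variable [IsAlgClosed k]

variable (l k F) in
/-- **the Weil pairing on the Tate module** -/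
noncomputable def ee : TT l k F →ₗ[ℤ_[l]] TT l k F →ₗ[ℤ_[l]] ℤ_[l] :=
  (eM l k F).compr₂ (triv l k).toLinearMap

theorem ee_apply (x y : TT l k F) : ee l k F x y = triv l k (eM l k F x y) := rfl

variable (l k F) in
/-- the cyclotomic character -/
noncomputable def cyc : SL k F →* ℤ_[l]ˣ := (cyc0 l k).comp res0

theorem cyc_apply (θ : SL k F) : cyc l k F θ = cyc0 l k (res0 θ) := rfl

theorem cyc_spec (θ : SL k F) {r : ℕ} {ζ : k} (h : ζ ^ l ^ r = 1) :
    (θ : F ≃+* F) (algebraMap k F ζ) =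
      algebraMap k F ζ ^ (PadicInt.toZModPow r (cyc l k F θ : ℤ_[l])).val := by
  rw [res0_spec, cyc0_spec (res0 θ) h, map_pow, cyc_apply]

theorem cyc_autSL {K : Type u} [Field K] [Algebra k K] [Algebra K F] [IsScalarTower k K F]
    (σ : F ≃ₐ[K] F) : cyc l k F (autSL k σ) = 1 := by
  rw [cyc_apply, res0_autSL, map_one]

theorem ee_act (θ : SL k F) (x y : TT l k F) :
    ee l k F (act l k F θ x) (act l k F θ y) = (cyc l k F θ : ℤ_[l]) * ee l k F x y := by
  rw [ee_apply, ee_apply, ← smul_eq_mul, ← map_smul, cyc_apply, ← map_aU_eq]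
  congr 1
  exact TM.ext fun r => eP_act θ (lp_ne l r) (TM.pow_smul_cp x r) (TM.pow_smul_cp y r)

theorem ee_self (x : TT l k F) : ee l k F x x = 0 := by
  rw [ee_apply, LinearEquiv.map_eq_zero_iff]
  exact TM.ext fun r => eP_self (lp_ne l r) (TM.pow_smul_cp x r)

theorem ee_skew (x y : TT l k F) : ee l k F y x = -ee l k F x y := by
  rw [ee_apply, ee_apply, ← map_neg]
  congr 1
  exact TM.ext fun r => eP_skew _ _ _

theorem pow_dvd_ee_iff {r : ℕ} {x y : TT l k F} :
    (l : ℤ_[l]) ^ r ∣ ee l k F x y ↔ eP (l ^ r) (TM.cp r x) (TM.cp r y) = 0 := by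
  rw [← cp_eM, TM.cp_eq_zero_iff, ee_apply]
  constructor
  · rintro ⟨c, hc⟩
    refine ⟨(triv l k).symm c, (triv l k).injective ?_⟩
    rw [hc, map_smul, LinearEquiv.apply_symm_apply, smul_eq_mul]
  · rintro ⟨z, hz⟩
    exact ⟨triv l k z, by rw [hz, map_smul, smul_eq_mul]⟩

/-- **perfectness** -/
theorem ee_perfect {r : ℕ} {x : TT l k F} (h : ∀ y, (l : ℤ_[l]) ^ r ∣ ee l k F x y) :
    ∃ z : TT l k F, x = (l : ℤ_[l]) ^ r • z := by
  rw [← TM.cp_eq_zero_iff]
  refine eP_nondeg (lp_cast r) (TM.pow_smul_cp x r) fun y hy => ?_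
  obtain ⟨z, rfl⟩ := exists_cp_eq (l := l) hy
  exact pow_dvd_ee_iff.1 (h z)

theorem ee_nondeg {x : TT l k F} (h : ∀ y, ee l k F x y = 0) : x = 0 :=
  TM.ext fun r => by
    rw [map_zero, TM.cp_eq_zero_iff]
    exact ee_perfect fun y => by rw [h]; exact dvd_zero _

end tt

section ext

variable (l : ℕ) [hl : Fact l.Prime] (k K L : Type u) [Field k] [Field K] [Field L] [Algebra k K]
  [Algebra k L] [Algebra K L] [IsScalarTower k K L] [CFF k K] [CFF k L] [FiniteDimensional K L]

/-- pull back on Tate modules -/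
noncomputable def jT : TT l k K →ₗ[ℤ_[l]] TT l k L := TM.map l (pullP L)

/-- norm on Tate modules -/
noncomputable def NT : TT l k L →ₗ[ℤ_[l]] TT l k K := TM.map l (pushP K)

variable {l k K L}

theorem cp_jT (x : TT l k K) (r : ℕ) : TM.cp r (jT l k K L x) = pullP L (TM.cp r x) := rfl

theorem cp_NT (y : TT l k L) (r : ℕ) : TM.cp r (NT l k K L y) = pushP K (TM.cp r y) := rfl

theorem NT_jT (x : TT l k K) : NT l k K L (jT l k K L x) = Module.finrank K L • x :=
  TM.ext fun r => by rw [cp_NT, cp_jT, pushP_pullP, map_nsmul]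

theorem hkP_jH {n : ℕ} (hn : n ≠ 0) (x : HK k K n) :
    (hkP hn (Additive.ofMul (jH k K L n x)) : Pc k L) =
      pullP L (hkP hn (Additive.ofMul x) : Pc k K) := by
  obtain ⟨f, rfl⟩ := QuotientGroup.mk_surjective x
  rw [jH_mk, hkP_mk, hkP_mk, pullP_tP hn f.2]

theorem hkP_nH {n : ℕ} (hn : n ≠ 0) (y : HK k L n) :
    (hkP hn (Additive.ofMul (nH k K L n y)) : Pc k K) =
      pushP K (hkP hn (Additive.ofMul y) : Pc k L) := by
  obtain ⟨f, rfl⟩ := QuotientGroup.mk_surjective y
  rw [nH_mk, hkP_mk, hkP_mk, pushP_tP hn f.2]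

theorem red_jT (r : ℕ) (x : TT l k K) : red l k L r (jT l k K L x) =
    Additive.ofMul (jH k K L (l ^ r) (red l k K r x).toMul) := by
  rw [red_eq_iff, hkP_jH, ofMul_toMul, hkP_red, cp_jT]

theorem red_NT (r : ℕ) (y : TT l k L) : red l k K r (NT l k K L y) =
    Additive.ofMul (nH k K L (l ^ r) (red l k L r y).toMul) := by
  rw [red_eq_iff, hkP_nH, ofMul_toMul, hkP_red, cp_NT]

theorem act_jT {θ : SL k L} {θ' : SL k K}
    (h : ∀ z : K, (θ : L ≃+* L) (algebraMap K L z) = algebraMap K L ((θ' : K ≃+* K) z))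
    (x : TT l k K) : act l k L θ (jT l k K L x) = jT l k K L (act l k K θ' x) :=
  TM.ext fun r => by
    obtain ⟨f, hf, hx⟩ := exists_cp_tP x r
    rw [cp_act, cp_jT, cp_jT, cp_act, ← hx, pullP_tP (lp_ne l r) hf,
      actP_tP θ (lp_ne l r) (jU_mem hf), actP_tP θ' (lp_ne l r) hf,
      pullP_tP (lp_ne l r) (act_mem θ' hf)]
    exact congrArg _ (Units.ext (h f))

theorem act_autSL_jT (σ : L ≃ₐ[K] L) (x : TT l k K) :
    act l k L (autSL k σ) (jT l k K L x) = jT l k K L x := by
  rw [act_jT (θ' := 1) (fun z => σ.commutes z), map_one]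
  rfl

theorem jT_NT [IsGalois K L] (y : TT l k L) :
    jT l k K L (NT l k K L y) = ∑ σ : L ≃ₐ[K] L, act l k L (autSL k σ) y :=
  TM.ext fun r => by
    obtain ⟨g, hg, hy⟩ := exists_cp_tP y r
    rw [cp_jT, cp_NT, map_sum, ← hy, pushP_tP (lp_ne l r) hg, pullP_tP (lp_ne l r) (nU_mem hg)]
    have h1 : jU L (nU K g) = ∏ σ : L ≃ₐ[K] L, mU ((autSL k σ : SL k L) : L ≃+* L) g := by
      ext
      rw [jU_val, nU_val, Algebra.norm_eq_prod_automorphisms, Units.coe_prod]
      rfl
    rw [h1, tP_prod (lp_ne l r) _ fun σ => act_mem _ hg]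
    exact Finset.sum_congr rfl fun σ _ => by rw [cp_act, ← hy, actP_tP _ (lp_ne l r) hg]

theorem ee_adj [NeZero (l : k)] [IsAlgClosed k] (x : TT l k K) (y : TT l k L) :
    ee l k L (jT l k K L x) y = ee l k K x (NT l k K L y) := by
  rw [ee_apply, ee_apply]
  congr 1
  exact TM.ext fun r => eP_adj (lp_ne l r) (TM.pow_smul_cp x r) (TM.pow_smul_cp y r)

/-- the norm commutes with compatible semilinear automorphisms -/
theorem NT_act [NeZero (l : k)] {θ : SL k L} {θ' : SL k K}
    (h : ∀ z : K, (θ : L ≃+* L) (algebraMap K L z) = algebraMap K L ((θ' : K ≃+* K) z))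
    (y : TT l k L) : NT l k K L (act l k L θ y) = act l k K θ' (NT l k K L y) := by
  have : IsAlgClosed k := CFF.ac K
  have hc : cyc l k L θ = cyc l k K θ' := by
    rw [cyc_apply, cyc_apply]
    congr 1
    refine res0_eq fun a => ?_
    rw [IsScalarTower.algebraMap_apply k K L, h, res0_spec, ← IsScalarTower.algebraMap_apply]
  rw [← sub_eq_zero]
  refine ee_nondeg fun x => ?_
  obtain ⟨x, rfl⟩ := (act l k K θ').surjective x
  rw [map_sub, LinearMap.sub_apply, ee_act, ee_skew, ← ee_adj, ← act_jT h, ee_act, ee_adj, hc,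
    ee_skew x]
  ring

end ext

end P027M.K
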