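import Mathlib
import Vale.Agent.P027M.K.Fun

/-!
# Block K, file 7: the Weil pairing on the torsion of the class group and on Kummer classes
-/

set_option linter.unusedSectionVars false

namespace P027M.K

open Vale.Agent.P019P P025H492 P025H816

universe u

section one

variable {k F : Type u} [Field k] [Field F] [Algebra k F] [CFF k F]

variable (k) in
/-- the class of `dv f / n` -/
noncomputable def tP (n : ℕ) (f : Fˣ) : Pc k F :=
  QuotientAddGroup.mk ((dv k (f : F)).mapRange (fun z => z / n) (Int.zero_ediv _))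

theorem tP_eq {n : ℕ} (hn : n ≠ 0) {f : Fˣ} {E : Plk k F →₀ ℤ} (h : n • E = dv k (f : F)) :
    tP k n f = QuotientAddGroup.mk E := by
  unfold tP
  congr 1
  ext P
  rw [Finsupp.mapRange_apply, ← h, Finsupp.smul_apply, nsmul_eq_mul,
    Int.mul_ediv_cancel_left _ (by exact_mod_cast hn)]

theorem toTors_tP {n : ℕ} (hn : n ≠ 0) (f : divU k F n) :
    ((toTors hn f).toAdd : Pc k F) = tP k n (f : Fˣ) := by
  obtain ⟨E, hE⟩ := exists_halfdiv f.2
  rw [toTors_eq hn f hE, tP_eq hn hE]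

theorem tP_mul {n : ℕ} (hn : n ≠ 0) {f g : Fˣ} (hf : f ∈ divU k F n) (hg : g ∈ divU k F n) :
    tP k n (f * g) = tP k n f + tP k n g := by
  obtain ⟨A, hA⟩ := exists_halfdiv hf
  obtain ⟨B, hB⟩ := exists_halfdiv hg
  rw [tP_eq hn hA, tP_eq hn hB, tP_eq hn (E := A + B)
    (by rw [smul_add, hA, hB, Units.val_mul, dv_mul f.ne_zero g.ne_zero]),
    QuotientAddGroup.mk_add]

theorem tP_one (n : ℕ) (hn : n ≠ 0) : tP k n (1 : Fˣ) = 0 := by
  have h := tP_mul (k := k) hn (one_mem (divU k F n)) (one_mem _)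
  rw [mul_one] at h
  exact left_eq_add.1 h

theorem tP_pow {n : ℕ} (hn : n ≠ 0) {f : Fˣ} (hf : f ∈ divU k F n) (m : ℕ) :
    tP k n (f ^ m) = m • tP k n f := by
  induction m with
  | zero => rw [pow_zero, tP_one n hn, zero_nsmul]
  | succ m ih => rw [pow_succ, tP_mul hn (pow_mem hf m) hf, ih, succ_nsmul]

theorem tP_prod {n : ℕ} (hn : n ≠ 0) {ι : Type*} (s : Finset ι) {f : ι → Fˣ}
    (hf : ∀ i, f i ∈ divU k F n) : tP k n (∏ i ∈ s, f i) = ∑ i ∈ s, tP k n (f i) := by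
  classical
  induction s using Finset.induction_on with
  | empty => rw [Finset.prod_empty, Finset.sum_empty, tP_one n hn]
  | insert a s ha ih =>
    rw [Finset.prod_insert ha, Finset.sum_insert ha,
      tP_mul hn (hf a) (Subgroup.prod_mem _ fun i _ => hf i), ih]

theorem nsmul_tP {n : ℕ} (hn : n ≠ 0) {f : Fˣ} (hf : f ∈ divU k F n) : n • tP k n f = 0 := by
  rw [← toTors_tP hn ⟨f, hf⟩]
  exact (toTors hn ⟨f, hf⟩).toAdd.2

theorem exists_tP {n : ℕ} (hn : n ≠ 0) {x : Pc k F} (hx : n • x = 0) :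
    ∃ f ∈ divU k F n, tP k n f = x := by
  obtain ⟨f, hf⟩ := toTors_surj (k := k) (F := F) hn (Multiplicative.ofAdd ⟨x, hx⟩)
  exact ⟨f, f.2, by rw [← toTors_tP hn, hf]; rfl⟩

theorem tP_eq_zero_iff {n : ℕ} (hn : n ≠ 0) {f : Fˣ} (hf : f ∈ divU k F n) :
    tP k n f = 0 ↔ f ∈ powU F n := by
  have h := SetLike.ext_iff.1 (toTors_ker (k := k) (F := F) hn) ⟨f, hf⟩
  rw [MonoidHom.mem_ker, Subgroup.mem_subgroupOf] at h
  rw [← h, ← toTors_tP hn ⟨f, hf⟩]
  exact ⟨fun h1 => Multiplicative.toAdd.injective (Subtype.ext h1), fun h1 => by rw [h1]; rfl⟩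

theorem tP_eq_iff {n : ℕ} (hn : n ≠ 0) {f g : Fˣ} (hf : f ∈ divU k F n) (hg : g ∈ divU k F n) :
    tP k n f = tP k n g ↔ f⁻¹ * g ∈ powU F n := by
  rw [← tP_eq_zero_iff hn (mul_mem (inv_mem hf) hg)]
  have h := tP_mul (k := k) hn hf (mul_mem (inv_mem hf) hg)
  rw [mul_inv_cancel_left] at h
  rw [h, left_eq_add]

theorem tP_level {m n : ℕ} (hm : m ≠ 0) (hn : n ≠ 0) {f : Fˣ} (hf : f ∈ divU k F (m * n)) :
    m • tP k (m * n) f = tP k n f := by
  obtain ⟨A, hA⟩ := exists_halfdiv hf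
  rw [tP_eq (mul_ne_zero hm hn) hA, tP_eq hn (E := m • A) (by rw [← hA, smul_smul, mul_comm]),
    QuotientAddGroup.mk_nsmul]

theorem pow_mem_divU {m n : ℕ} {g : Fˣ} (hg : g ∈ divU k F n) : g ^ m ∈ divU k F (m * n) :=
  fun P => by
    rw [ou_pow, Nat.cast_mul]
    exact mul_dvd_mul_left _ (hg P)

theorem tP_level' {m n : ℕ} (hm : m ≠ 0) (hn : n ≠ 0) {g : Fˣ} (hg : g ∈ divU k F n) :
    tP k (m * n) (g ^ m) = tP k n g := by
  obtain ⟨A, hA⟩ := exists_halfdiv hg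
  rw [tP_eq hn hA, tP_eq (mul_ne_zero hm hn) (E := A)]
  ext P
  rw [mul_smul, hA, Finsupp.smul_apply, dv_apply, dv_apply, ou_pow, nsmul_eq_mul]

open Classical in
/-- a function representing a torsion class -/
noncomputable def rep (n : ℕ) (x : Pc k F) : Fˣ :=
  if h : ∃ f ∈ divU k F n, tP k n f = x then h.choose else 1

theorem rep_spec {n : ℕ} (hn : n ≠ 0) {x : Pc k F} (hx : n • x = 0) :
    rep n x ∈ divU k F n ∧ tP k n (rep n x) = x := by
  have h := exists_tP hn hx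
  rw [rep, dif_pos h]
  exact h.choose_spec

/-- **the Weil pairing** on `n`-torsion classes (written additively) -/
noncomputable def eP (n : ℕ) (x y : Pc k F) : Additive kˣ := e k n (rep n x) (rep n y)

theorem e_congr {n : ℕ} (hn : n ≠ 0) {f f' g g' : Fˣ} (hf : f ∈ divU k F n)
    (hf' : f' ∈ divU k F n) (hg : g ∈ divU k F n) (hg' : g' ∈ divU k F n)
    (h1 : tP k n f = tP k n f') (h2 : tP k n g = tP k n g') : e k n f g = e k n f' g' := by
  rw [tP_eq_iff hn hf hf'] at h1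
  rw [tP_eq_iff hn hg hg'] at h2
  have h3 := e_mul_left hn g' hf (mul_mem (inv_mem hf) hf')
  have h4 := e_mul_right hn f hg (mul_mem (inv_mem hg) hg')
  rw [mul_inv_cancel_left, e_powU_left hn h1 hg', add_zero] at h3
  rw [mul_inv_cancel_left, e_powU_right hn hf h2, add_zero] at h4
  rw [h3, h4]

theorem eP_tP {n : ℕ} (hn : n ≠ 0) {f g : Fˣ} (hf : f ∈ divU k F n) (hg : g ∈ divU k F n) :
    eP n (tP k n f) (tP k n g) = e k n f g :=
  e_congr hn (rep_spec hn (nsmul_tP hn hf)).1 hf (rep_spec hn (nsmul_tP hn hg)).1 hg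
    (rep_spec hn (nsmul_tP hn hf)).2 (rep_spec hn (nsmul_tP hn hg)).2

theorem mem_divU_of {n : ℕ} {f : Fˣ} {A : Plk k F →₀ ℤ} (hA : n • A = dv k (f : F)) :
    f ∈ divU k F n := fun P => by
  rw [← dv_apply, ← hA, Finsupp.smul_apply, nsmul_eq_mul]
  exact Dvd.intro _ rfl

theorem eP_mk {n : ℕ} (hn : n ≠ 0) {f g : Fˣ} {A B : Plk k F →₀ ℤ} (hA : n • A = dv k (f : F))
    (hB : n • B = dv k (g : F)) :
    eP n (QuotientAddGroup.mk A : Pc k F) (QuotientAddGroup.mk B) = e k n f g := by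
  rw [← tP_eq hn hA, ← tP_eq hn hB, eP_tP hn (mem_divU_of hA) (mem_divU_of hB)]

theorem eP_add_left {n : ℕ} (hn : n ≠ 0) {x x' y : Pc k F} (hx : n • x = 0) (hx' : n • x' = 0)
    (hy : n • y = 0) : eP n (x + x') y = eP n x y + eP n x' y := by
  obtain ⟨f, hf, rfl⟩ := exists_tP hn hx
  obtain ⟨f', hf', rfl⟩ := exists_tP hn hx'
  obtain ⟨g, hg, rfl⟩ := exists_tP hn hy
  rw [← tP_mul hn hf hf', eP_tP hn (mul_mem hf hf') hg, eP_tP hn hf hg, eP_tP hn hf' hg,
    e_mul_left hn g hf hf']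

theorem eP_skew (n : ℕ) (x y : Pc k F) : eP n y x = -eP n x y := e_skew n _ _

theorem eP_add_right {n : ℕ} (hn : n ≠ 0) {x y y' : Pc k F} (hx : n • x = 0) (hy : n • y = 0)
    (hy' : n • y' = 0) : eP n x (y + y') = eP n x y + eP n x y' := by
  rw [eP_skew, eP_add_left hn hy hy' hx, eP_skew n x y, eP_skew n x y']
  abel

theorem eP_self {n : ℕ} (hn : n ≠ 0) {x : Pc k F} (hx : n • x = 0) : eP n x x = 0 :=
  e_self (rep_spec hn hx).1

theorem nsmul_eP {n : ℕ} (hn : n ≠ 0) {x y : Pc k F} (hx : n • x = 0) (hy : n • y = 0) :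
    n • eP n x y = 0 := nsmul_e hn (rep_spec hn hx).1 (rep_spec hn hy).1

theorem eP_level {m n : ℕ} (hm : m ≠ 0) (hn : n ≠ 0) {x y : Pc k F} (hx : (m * n) • x = 0)
    (hy : (m * n) • y = 0) : m • eP (m * n) x y = eP n (m • x) (m • y) := by
  obtain ⟨f, hf, rfl⟩ := exists_tP (mul_ne_zero hm hn) hx
  obtain ⟨g, hg, rfl⟩ := exists_tP (mul_ne_zero hm hn) hy
  rw [tP_level hm hn hf, tP_level hm hn hg, eP_tP (mul_ne_zero hm hn) hf hg,
    eP_tP hn (divU_mul_le m n hf) (divU_mul_le m n hg), nsmul_e_level hm hn hf hg]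

theorem eP_level' {m n : ℕ} (hm : m ≠ 0) (hn : n ≠ 0) {x y : Pc k F} (hx : (m * n) • x = 0)
    (hy : n • y = 0) : eP (m * n) x y = eP n (m • x) y := by
  obtain ⟨f, hf, rfl⟩ := exists_tP (mul_ne_zero hm hn) hx
  obtain ⟨g, hg, rfl⟩ := exists_tP hn hy
  rw [tP_level hm hn hf, eP_tP hn (divU_mul_le m n hf) hg, ← tP_level' hm hn hg,
    eP_tP (mul_ne_zero hm hn) hf (pow_mem_divU hg), e_level hm hn hf hg]

theorem ne_zero_of_cast {n : ℕ} (hn : (n : k) ≠ 0) : n ≠ 0 := by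
  rintro rfl
  simp at hn

/-- **nondegeneracy** on classes -/
theorem eP_nondeg {n : ℕ} (hn : (n : k) ≠ 0) {x : Pc k F} (hx : n • x = 0)
    (h : ∀ y : Pc k F, n • y = 0 → eP n x y = 0) : x = 0 := by
  have hn0 := ne_zero_of_cast hn
  obtain ⟨f, hf, rfl⟩ := exists_tP hn0 hx
  rw [tP_eq_zero_iff hn0 hf]
  refine nondeg hn hf fun g hg => ?_
  rw [← eP_tP hn0 hf hg, h _ (nsmul_tP hn0 hg)]

/-- Kummer classes are the torsion of the class group -/
noncomputable def hkP {n : ℕ} (hn : n ≠ 0) : Additive (HK k F n) ≃+ tors (Pc k F) n :=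
  MulEquiv.toAdditiveLeft ((QuotientGroup.quotientMulEquivOfEq (toTors_ker hn).symm).trans
    (QuotientGroup.quotientKerEquivOfSurjective _ (toTors_surj hn)))

theorem hkP_mk {n : ℕ} (hn : n ≠ 0) (f : divU k F n) :
    (hkP hn (Additive.ofMul (QuotientGroup.mk f : HK k F n)) : Pc k F) = tP k n (f : Fˣ) :=
  toTors_tP hn f

/-- **the Weil pairing** on Kummer classes -/
noncomputable def eH {n : ℕ} (hn : n ≠ 0) : HK k F n →* HK k F n →* kˣ :=
  MonoidHom.mk' (fun x => MonoidHom.mk'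
    (fun y => (eP n (hkP hn (Additive.ofMul x) : Pc k F) (hkP hn (Additive.ofMul y))).toMul)
    fun y y' => by
      rw [ofMul_mul, map_add, AddSubgroup.coe_add,
        eP_add_right hn (hkP hn _).2 (hkP hn _).2 (hkP hn _).2, toMul_add])
    fun x x' => MonoidHom.ext fun y => by
      simp only [MonoidHom.mk'_apply, MonoidHom.mul_apply]
      rw [ofMul_mul, map_add, AddSubgroup.coe_add,
        eP_add_left hn (hkP hn _).2 (hkP hn _).2 (hkP hn _).2, toMul_add]

theorem eH_apply {n : ℕ} (hn : n ≠ 0) (x y : HK k F n) : eH hn x y =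
    (eP n (hkP hn (Additive.ofMul x) : Pc k F) (hkP hn (Additive.ofMul y))).toMul := rfl

theorem eH_mk {n : ℕ} (hn : n ≠ 0) (f g : divU k F n) :
    eH hn (QuotientGroup.mk f) (QuotientGroup.mk g) = (e k n (f : Fˣ) (g : Fˣ)).toMul := by
  rw [eH_apply, hkP_mk, hkP_mk, eP_tP hn f.2 g.2]

theorem hk_pow (n : ℕ) (x : HK k F n) : x ^ n = 1 := by
  obtain ⟨f, rfl⟩ := QuotientGroup.mk_surjective x
  rw [← QuotientGroup.mk_pow, QuotientGroup.eq_one_iff, Subgroup.mem_subgroupOf]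
  exact ⟨f, rfl⟩

theorem finite_HK {n : ℕ} (hn : (n : k) ≠ 0) : Finite (HK k F n) :=
  Nat.finite_of_card_ne_zero (by rw [card_HK hn]; exact pow_ne_zero _ (ne_zero_of_cast hn))

theorem eH_injective {n : ℕ} (hn : (n : k) ≠ 0) :
    Function.Injective (eH (k := k) (F := F) (ne_zero_of_cast hn)) := by
  rw [injective_iff_map_eq_one]
  intro x hx
  obtain ⟨f, rfl⟩ := QuotientGroup.mk_surjective x
  rw [QuotientGroup.eq_one_iff, Subgroup.mem_subgroupOf]
  refine nondeg hn f.2 fun g hg => ?_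
  have h := eH_mk (ne_zero_of_cast hn) f ⟨g, hg⟩
  rw [hx, MonoidHom.one_apply, eq_comm, toMul_eq_one] at h
  exact h

/-- **perfectness** -/
theorem eH_bijective {n : ℕ} (hn : (n : k) ≠ 0) :
    Function.Bijective (eH (k := k) (F := F) (ne_zero_of_cast hn)) := by
  have : IsAlgClosed k := CFF.ac F
  have : NeZero (n : k) := ⟨hn⟩
  have : NeZero n := ⟨ne_zero_of_cast hn⟩
  have := finite_HK (F := F) hn
  have : HasEnoughRootsOfUnity k (Monoid.exponent (HK k F n)) :=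
    HasEnoughRootsOfUnity.of_dvd k (Monoid.exponent_dvd_of_forall_pow_eq_one (hk_pow n))
  have h := CommGroup.card_monoidHom_of_hasEnoughRootsOfUnity (HK k F n) k
  have : Finite (HK k F n →* kˣ) := Nat.finite_of_card_ne_zero (by rw [h]; exact Nat.card_pos.ne')
  exact (Nat.bijective_iff_injective_and_card _).2 ⟨eH_injective hn, h.symm⟩

/-- every character of the `n`-torsion is given by the pairing -/
theorem exists_eP {n : ℕ} (hn : (n : k) ≠ 0) (χ : tors (Pc k F) n →+ Additive kˣ) :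
    ∃ x : Pc k F, n • x = 0 ∧ ∀ y : tors (Pc k F) n, χ y = eP n x (y : Pc k F) := by
  have hn0 := ne_zero_of_cast hn
  obtain ⟨x, hx⟩ := (eH_bijective (F := F) hn).2
    (MonoidHom.toAdditive.symm (χ.comp (hkP hn0).toAddMonoidHom))
  refine ⟨hkP hn0 (Additive.ofMul x), (hkP hn0 _).2, fun y => ?_⟩
  obtain ⟨z, rfl⟩ := (hkP hn0).surjective y
  have h := DFunLike.congr_fun hx z.toMul
  rw [eH_apply] at h
  exact (Additive.toMul.injective h).symm

theorem pic_div {n : ℕ} (hn : (n : k) ≠ 0) {m : ℕ} (hm : m ≠ 0) {y : Pc k F} (hy : m • y = 0) :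
    ∃ z : Pc k F, n • z = y := by
  obtain ⟨D, rfl⟩ := QuotientAddGroup.mk_surjective y
  obtain ⟨E, -, hE⟩ := pic0_div hn D (dg_of_tors hm (mk_tors.1 hy))
  refine ⟨QuotientAddGroup.mk E, ?_⟩
  rw [← QuotientAddGroup.mk_nsmul, eq_comm, QuotientAddGroup.eq_iff_sub_mem]
  exact hE

end one

section maps

variable {k F k' F' : Type u} [Field k] [Field F] [Algebra k F] [CFF k F]
  [Field k'] [Field F'] [Algebra k' F'] [CFF k' F']

/-- maps of Kummer classes induced by homomorphisms of the unit groups -/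
noncomputable def hkMap {n : ℕ} (φ : Fˣ →* F'ˣ) (h : ∀ f ∈ divU k F n, φ f ∈ divU k' F' n) :
    HK k F n →* HK k' F' n :=
  QuotientGroup.map _ _ ((φ.comp (divU k F n).subtype).codRestrict _ fun f => h f f.2) (by
    rintro f ⟨g, hg⟩
    exact ⟨φ g, by
      show φ g ^ n = φ f
      rw [← map_pow]
      exact congrArg φ hg⟩)

theorem hkMap_mk {n : ℕ} (φ : Fˣ →* F'ˣ) (h : ∀ f ∈ divU k F n, φ f ∈ divU k' F' n)
    (f : divU k F n) :
    hkMap φ h (QuotientGroup.mk f) = QuotientGroup.mk ⟨φ f, h f f.2⟩ := rfl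

variable {s : F ≃+* F'} {s₀ : k ≃+* k'}
  (hs : ∀ a, s (algebraMap k F a) = algebraMap k' F' (s₀ a))

/-- a semilinear isomorphism on the class group -/
noncomputable def semiP : Pc k F →+ Pc k' F' :=
  QuotientAddGroup.map _ _ (Finsupp.mapDomain.addMonoidHom (plEquiv s s₀ hs)) (by
    rintro _ ⟨z, hz, rfl⟩
    exact ⟨s z, (map_ne_zero s).2 hz, (dv_plEquiv s s₀ hs z).symm⟩)

theorem semiP_mk (D : Plk k F →₀ ℤ) : semiP hs (QuotientAddGroup.mk D) =
    QuotientAddGroup.mk (D.mapDomain (plEquiv s s₀ hs)) := rfl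

theorem semiP_tP {n : ℕ} (hn : n ≠ 0) {f : Fˣ} (hf : f ∈ divU k F n) :
    semiP hs (tP k n f) = tP k' n (mU s f) := by
  obtain ⟨A, hA⟩ := exists_halfdiv hf
  rw [tP_eq hn hA, semiP_mk, tP_eq hn (E := A.mapDomain (plEquiv s s₀ hs))]
  rw [mU_val, dv_plEquiv s s₀ hs, ← hA, Finsupp.mapDomain_smul]

theorem eP_semi {n : ℕ} (hn : n ≠ 0) {x y : Pc k F} (hx : n • x = 0) (hy : n • y = 0) :
    eP n (semiP hs x) (semiP hs y) = aU s₀ (eP n x y) := by
  obtain ⟨f, hf, rfl⟩ := exists_tP hn hx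
  obtain ⟨g, hg, rfl⟩ := exists_tP hn hy
  rw [semiP_tP hs hn hf, semiP_tP hs hn hg, eP_tP hn (mU_mem hs hf) (mU_mem hs hg),
    eP_tP hn hf hg, e_semi hs hn hf hg]

end maps

section ext

variable {k K L : Type u} [Field k] [Field K] [Field L] [Algebra k K] [Algebra k L]
  [Algebra K L] [IsScalarTower k K L] [CFF k K] [CFF k L] [FiniteDimensional K L]

variable (L) in
/-- pull back of divisor classes -/
noncomputable def pullP : Pc k K →+ Pc k L :=
  QuotientAddGroup.map _ _ (pull L) fun _ h => pull_prn h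

variable (K) in
/-- push forward of divisor classes -/
noncomputable def pushP : Pc k L →+ Pc k K :=
  QuotientAddGroup.map _ _ (push K) fun _ h => push_prn h

theorem pullP_mk (D : Plk k K →₀ ℤ) :
    pullP L (QuotientAddGroup.mk D : Pc k K) = QuotientAddGroup.mk (pull L D) := rfl

theorem pushP_mk (D : Plk k L →₀ ℤ) :
    pushP K (QuotientAddGroup.mk D : Pc k L) = QuotientAddGroup.mk (push K D) := rfl

theorem pullP_tP {n : ℕ} (hn : n ≠ 0) {f : Kˣ} (hf : f ∈ divU k K n) :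
    pullP L (tP k n f) = tP k n (jU L f) := by
  obtain ⟨A, hA⟩ := exists_halfdiv hf
  rw [tP_eq hn hA, pullP_mk, tP_eq hn (E := pull L A)]
  rw [jU_val, dv_algebraMap, ← hA, map_nsmul]

theorem pushP_tP {n : ℕ} (hn : n ≠ 0) {g : Lˣ} (hg : g ∈ divU k L n) :
    pushP K (tP k n g) = tP k n (nU K g) := by
  obtain ⟨A, hA⟩ := exists_halfdiv hg
  rw [tP_eq hn hA, pushP_mk, tP_eq hn (E := push K A)]
  rw [nU_val, dv_norm, ← hA, map_nsmul]

theorem pushP_pullP (x : Pc k K) : pushP K (pullP L x) = Module.finrank K L • x := by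
  obtain ⟨D, rfl⟩ := QuotientAddGroup.mk_surjective x
  rw [pullP_mk, pushP_mk, push_pull, QuotientAddGroup.mk_nsmul]

theorem eP_adj {n : ℕ} (hn : n ≠ 0) {x : Pc k K} {y : Pc k L} (hx : n • x = 0) (hy : n • y = 0) :
    eP n (pullP L x) y = eP n x (pushP K y) := by
  obtain ⟨f, hf, rfl⟩ := exists_tP hn hx
  obtain ⟨g, hg, rfl⟩ := exists_tP hn hy
  rw [pullP_tP hn hf, pushP_tP hn hg, eP_tP hn (jU_mem hf) hg, eP_tP hn hf (nU_mem hg),
    e_adj hn hf hg]

variable (k K L) in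
/-- inclusion on Kummer classes -/
noncomputable def jH (n : ℕ) : HK k K n →* HK k L n := hkMap (jU L) fun _ h => jU_mem h

variable (k K L) in
/-- norm on Kummer classes -/
noncomputable def nH (n : ℕ) : HK k L n →* HK k K n := hkMap (nU K) fun _ h => nU_mem h

theorem jH_mk {n : ℕ} (f : divU k K n) :
    jH k K L n (QuotientGroup.mk f) = QuotientGroup.mk ⟨jU L f, jU_mem (K := K) f.2⟩ := rfl

theorem nH_mk {n : ℕ} (g : divU k L n) :
    nH k K L n (QuotientGroup.mk g) = QuotientGroup.mk ⟨nU K g, nU_mem (L := L) g.2⟩ := rfl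

theorem eH_adj {n : ℕ} (hn : n ≠ 0) (x : HK k K n) (y : HK k L n) :
    eH hn (jH k K L n x) y = eH hn x (nH k K L n y) := by
  obtain ⟨f, rfl⟩ := QuotientGroup.mk_surjective x
  obtain ⟨g, rfl⟩ := QuotientGroup.mk_surjective y
  rw [jH_mk, nH_mk, eH_mk, eH_mk, e_adj hn f.2 g.2]

end ext

end P027M.K
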