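import Vale.Agent.P025.R2.H816.HK
import Vale.Agent.P025.R2.H492.Line
import Vale.Agent.P025.R2.H492.Ext5

/-!
# Block K, file 1: values, leading coefficients and the local symbol of level `n`
-/

set_option linter.unusedSectionVars false

namespace P027M.K

open Vale.Agent.P019P P025H492 P025H816

variable {k F : Type*} [Field k] [Field F] [Algebra k F] [CFF k F]

/-- `z` has the value `c` at `P` -/
def Val (P : Plk k F) (z : F) (c : k) : Prop := z - algebraMap k F c ∈ Mge P 1

theorem const_mem (P : Plk k F) (c : k) : algebraMap k F c ∈ Mge P 0 :=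
  mem_Mge.2 (Or.inr (by rw [ord_const]))

theorem Val.mem {P : Plk k F} {z : F} {c : k} (h : Val P z c) : z ∈ Mge P 0 :=
  mem_Mge.2 (Or.inr (ord_nonneg_of_sub h))

theorem Val.const (P : Plk k F) (c : k) : Val P (algebraMap k F c) c := by
  unfold Val
  rw [sub_self]
  exact zero_mem _

theorem Val.one (P : Plk k F) : Val P 1 1 := by
  have := Val.const P (1 : k)
  rwa [map_one] at this

theorem Val.zero_iff {P : Plk k F} {z : F} : Val P z 0 ↔ z ∈ Mge P 1 := by
  unfold Val
  rw [map_zero, sub_zero]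

theorem Val.add {P : Plk k F} {z w : F} {c d : k} (h : Val P z c) (h' : Val P w d) :
    Val P (z + w) (c + d) := by
  unfold Val at *
  have : z + w - algebraMap k F (c + d) = (z - algebraMap k F c) + (w - algebraMap k F d) := by
    rw [map_add]; ring
  rw [this]
  exact add_mem h h'

theorem Val.neg {P : Plk k F} {z : F} {c : k} (h : Val P z c) : Val P (-z) (-c) := by
  unfold Val at *
  have : -z - algebraMap k F (-c) = -(z - algebraMap k F c) := by
    rw [map_neg]; ring
  rw [this]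
  exact neg_mem h

theorem Val.sub {P : Plk k F} {z w : F} {c d : k} (h : Val P z c) (h' : Val P w d) :
    Val P (z - w) (c - d) := by
  rw [sub_eq_add_neg, sub_eq_add_neg]
  exact h.add h'.neg

theorem Val.mul {P : Plk k F} {z w : F} {c d : k} (h : Val P z c) (h' : Val P w d) :
    Val P (z * w) (c * d) := by
  have h1 := mul_mem_Mge h h'.mem
  have h2 := mul_mem_Mge (const_mem P c) h'
  unfold Val
  have : z * w - algebraMap k F (c * d) =
      (z - algebraMap k F c) * w + algebraMap k F c * (w - algebraMap k F d) := by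
    rw [map_mul]; ring
  rw [this]
  exact add_mem (by simpa using h1) (by simpa using h2)

theorem Val.pow {P : Plk k F} {z : F} {c : k} (h : Val P z c) (n : ℕ) :
    Val P (z ^ n) (c ^ n) := by
  induction n with
  | zero => rw [pow_zero, pow_zero]; exact Val.one P
  | succ n ih => rw [pow_succ, pow_succ]; exact ih.mul h

theorem Val.sum {P : Plk k F} {ι : Type*} (s : Finset ι) {z : ι → F} {c : ι → k}
    (h : ∀ i ∈ s, Val P (z i) (c i)) : Val P (∑ i ∈ s, z i) (∑ i ∈ s, c i) := by
  classical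
  induction s using Finset.induction_on with
  | empty => rw [Finset.sum_empty, Finset.sum_empty, Val.zero_iff]; exact zero_mem _
  | insert a s ha ih =>
    rw [Finset.sum_insert ha, Finset.sum_insert ha]
    exact (h a (Finset.mem_insert_self _ _)).add
      (ih fun i hi => h i (Finset.mem_insert_of_mem hi))

theorem Val.unique {P : Plk k F} {z : F} {c d : k} (h : Val P z c) (h' : Val P z d) : c = d :=
  (vl_eq h).symm.trans (vl_eq h')

theorem Val.unit {P : Plk k F} {z : F} {c : k} (h : Val P z c) (hc : c ≠ 0) :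
    z ≠ 0 ∧ ord P z = 0 := by
  have h1 : algebraMap k F c ≠ 0 := by rwa [Ne, map_eq_zero]
  have h2 := ord_add_of_lt (P := P) h1 (w := z - algebraMap k F c)
    (by rw [ord_const, zero_add]; exact h)
  rwa [add_sub_cancel, ord_const] at h2

theorem Val.ne_zero {P : Plk k F} {z : F} {c : k} (h : Val P z c) (hz : z ≠ 0)
    (h0 : ord P z = 0) : c ≠ 0 := by
  rintro rfl
  rcases mem_Mge.1 (Val.zero_iff.1 h) with h1 | h1
  · exact hz h1
  · omega

theorem val_vl {P : Plk k F} {z : F} (h : 0 ≤ ord P z) : Val P z (vl P z) := sub_vl_mem h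

theorem exists_val {P : Plk k F} {z : F} (h : z ∈ Mge P 0) : ∃ c, Val P z c := by
  refine ⟨vl P z, val_vl ?_⟩
  rcases mem_Mge.1 h with h | h
  · rw [h, ord_zero]
  · exact h

/-! ### orders of units -/

theorem ou_mul (P : Plk k F) (f g : Fˣ) :
    ord P ((f * g : Fˣ) : F) = ord P (f : F) + ord P (g : F) := by
  rw [Units.val_mul, ord_mul P f.ne_zero g.ne_zero]

theorem ou_one (P : Plk k F) : ord P ((1 : Fˣ) : F) = 0 := by rw [Units.val_one, ord_one]

theorem ou_inv (P : Plk k F) (f : Fˣ) : ord P ((f⁻¹ : Fˣ) : F) = -ord P (f : F) := by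
  rw [Units.val_inv_eq_inv_val, ord_inv]

theorem ou_div (P : Plk k F) (f g : Fˣ) :
    ord P ((f / g : Fˣ) : F) = ord P (f : F) - ord P (g : F) := by
  rw [div_eq_mul_inv, ou_mul, ou_inv, sub_eq_add_neg]

theorem ou_zpow (P : Plk k F) (f : Fˣ) (n : ℤ) :
    ord P ((f ^ n : Fˣ) : F) = n * ord P (f : F) := by
  rw [Units.val_zpow_eq_zpow_val, ord_zpow]

theorem ou_pow (P : Plk k F) (f : Fˣ) (n : ℕ) :
    ord P ((f ^ n : Fˣ) : F) = n * ord P (f : F) := by
  rw [Units.val_pow_eq_pow_val, ord_pow]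

theorem ou_neg (P : Plk k F) (f : Fˣ) : ord P ((-f : Fˣ) : F) = ord P (f : F) := by
  rw [Units.val_neg, ord_neg]

theorem ou_prod (P : Plk k F) {ι : Type*} (s : Finset ι) (f : ι → Fˣ) :
    ord P ((∏ i ∈ s, f i : Fˣ) : F) = ∑ i ∈ s, ord P (f i : F) := by
  rw [Units.coe_prod, ord_prod P s _ fun i _ => (f i).ne_zero]

/-- a chosen uniformizer -/
noncomputable def un (P : Plk k F) : Fˣ :=
  Units.mk0 (exists_unif P).choose (exists_unif P).choose_spec.1

theorem ord_un (P : Plk k F) : ord P (un P : F) = 1 := (exists_unif P).choose_spec.2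

theorem ord_nrm (P : Plk k F) (f : Fˣ) :
    ord P ((f * un P ^ (-ord P (f : F)) : Fˣ) : F) = 0 := by
  rw [ou_mul, ou_zpow, ord_un]; ring

/-- the leading coefficient (with respect to the chosen uniformizer), written additively -/
noncomputable def lc (P : Plk k F) (f : Fˣ) : Additive kˣ :=
  Additive.ofMul (Units.mk0 (vl P ((f * un P ^ (-ord P (f : F)) : Fˣ) : F))
    ((val_vl (ord_nrm P f).ge).ne_zero (Units.ne_zero _) (ord_nrm P f)))

theorem lc_val' (P : Plk k F) (f : Fˣ) :
    Val P ((f * un P ^ (-ord P (f : F)) : Fˣ) : F) ((lc P f).toMul : kˣ) :=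
  val_vl (ord_nrm P f).ge

theorem lc_val {P : Plk k F} {u : Fˣ} (h : ord P (u : F) = 0) :
    Val P (u : F) ((lc P u).toMul : kˣ) := by
  have := lc_val' P u
  rwa [h, neg_zero, zpow_zero, mul_one] at this

theorem lc_eq {P : Plk k F} {u : Fˣ} {c : kˣ} (h : Val P (u : F) (c : k)) :
    lc P u = Additive.ofMul c := by
  have h1 := (lc_val (h.unit c.ne_zero).2).unique h
  rw [← Units.ext_iff] at h1
  rw [← h1]; rfl

theorem lc_eq_zero {P : Plk k F} {u : Fˣ} (h : Val P (u : F) 1) : lc P u = 0 :=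
  lc_eq (c := 1) h

theorem val_one_of_lc {P : Plk k F} {u : Fˣ} (h : ord P (u : F) = 0) (h' : lc P u = 0) :
    Val P (u : F) 1 := by
  have := lc_val h
  rwa [h'] at this

theorem lc_mul (P : Plk k F) (f g : Fˣ) : lc P (f * g) = lc P f + lc P g := by
  have h1 := (lc_val' P f).mul (lc_val' P g)
  have h2 := lc_val' P (f * g)
  have h3 : (f * g * un P ^ (-ord P ((f * g : Fˣ) : F)) : Fˣ) =
      (f * un P ^ (-ord P (f : F))) * (g * un P ^ (-ord P (g : F))) := by
    rw [ou_mul, neg_add, zpow_add, mul_mul_mul_comm]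
  rw [h3, Units.val_mul] at h2
  have h4 := h2.unique h1
  rw [← Units.val_mul, ← Units.ext_iff] at h4
  apply Additive.toMul.injective
  rw [h4, toMul_add]

/-- the leading coefficient as a homomorphism -/
noncomputable def lcH (P : Plk k F) : Additive Fˣ →+ Additive kˣ :=
  AddMonoidHom.mk' (fun f => lc P f.toMul) fun _ _ => lc_mul P _ _

theorem lc_one (P : Plk k F) : lc P 1 = 0 := (lcH P).map_zero

theorem lc_inv (P : Plk k F) (f : Fˣ) : lc P f⁻¹ = -lc P f := (lcH P).map_neg (Additive.ofMul f)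

theorem lc_div (P : Plk k F) (f g : Fˣ) : lc P (f / g) = lc P f - lc P g :=
  (lcH P).map_sub (Additive.ofMul f) (Additive.ofMul g)

theorem lc_zpow (P : Plk k F) (f : Fˣ) (n : ℤ) : lc P (f ^ n) = n • lc P f :=
  (lcH P).map_zsmul n (Additive.ofMul f)

theorem lc_pow (P : Plk k F) (f : Fˣ) (n : ℕ) : lc P (f ^ n) = (n : ℤ) • lc P f := by
  rw [← lc_zpow, zpow_natCast]

theorem lc_prod (P : Plk k F) {ι : Type*} (s : Finset ι) (f : ι → Fˣ) :
    lc P (∏ i ∈ s, f i) = ∑ i ∈ s, lc P (f i) := by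
  classical
  induction s using Finset.induction_on with
  | empty => rw [Finset.prod_empty, Finset.sum_empty, lc_one]
  | insert a s ha ih => rw [Finset.prod_insert ha, Finset.sum_insert ha, lc_mul, ih]

theorem zsum_smul {A ι : Type*} [AddCommGroup A] (s : Finset ι) (f : ι → ℤ) (a : A) :
    (∑ i ∈ s, f i) • a = ∑ i ∈ s, f i • a := Finset.sum_smul

theorem zsmul_sum' {A ι : Type*} [AddCommGroup A] (s : Finset ι) (n : ℤ) (f : ι → A) :
    n • ∑ i ∈ s, f i = ∑ i ∈ s, n • f i := Finset.smul_sum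

variable (k) in
/-- the sign `-1` -/
def sg : Additive kˣ := Additive.ofMul (-1)

theorem two_sg : (2 : ℤ) • sg k = 0 := by
  apply Additive.toMul.injective
  simp [sg, zpow_ofNat]

variable (F) in
/-- constants as units -/
noncomputable def cU : kˣ →* Fˣ := Units.map (algebraMap k F : k →* F)

theorem cU_val (c : kˣ) : ((cU F c : Fˣ) : F) = algebraMap k F c := rfl

theorem ord_cU (P : Plk k F) (c : kˣ) : ord P ((cU F c : Fˣ) : F) = 0 := ord_const P _

theorem lc_cU (P : Plk k F) (c : kˣ) : lc P (cU F c) = Additive.ofMul c :=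
  lc_eq (Val.const P _)

theorem lc_neg (P : Plk k F) (f : Fˣ) : lc P (-f) = sg k + lc P f := by
  have : -f = cU F (-1 : kˣ) * f := by
    ext; simp [cU_val]
  rw [this, lc_mul, lc_cU]; rfl

/-- the local symbol of level `n` -/
noncomputable def w (n : ℕ) (P : Plk k F) (f g : Fˣ) : Additive kˣ :=
  ((n : ℤ) * (ord P (f : F) / n) * (ord P (g : F) / n)) • sg k +
    (ord P (g : F) / n) • lc P f - (ord P (f : F) / n) • lc P g

theorem w_eq {n : ℕ} (hn : n ≠ 0) {P : Plk k F} {f g : Fˣ} {a b : ℤ}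
    (ha : ord P (f : F) = n * a) (hb : ord P (g : F) = n * b) :
    w n P f g = ((n : ℤ) * a * b) • sg k + b • lc P f - a • lc P g := by
  have h : (n : ℤ) ≠ 0 := by exact_mod_cast hn
  rw [w, ha, hb, Int.mul_ediv_cancel_left _ h, Int.mul_ediv_cancel_left _ h]

theorem w_one (P : Plk k F) (f g : Fˣ) : w 1 P f g =
    (ord P (f : F) * ord P (g : F)) • sg k + ord P (g : F) • lc P f - ord P (f : F) • lc P g := by
  rw [w_eq one_ne_zero (a := ord P (f : F)) (b := ord P (g : F)) (by simp) (by simp)]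
  simp

theorem w_skew (n : ℕ) (P : Plk k F) (f g : Fˣ) : w n P g f = -w n P f g := by
  unfold w
  linear_combination (norm := module)
    ((n : ℤ) * (ord P (f : F) / n) * (ord P (g : F) / n)) • two_sg (k := k)

theorem w_mul_left {n : ℕ} (hn : n ≠ 0) {P : Plk k F} {f f' : Fˣ} (g : Fˣ)
    (hf : (n : ℤ) ∣ ord P (f : F)) (hf' : (n : ℤ) ∣ ord P (f' : F)) :
    w n P (f * f') g = w n P f g + w n P f' g := by
  obtain ⟨a, ha⟩ := hf
  obtain ⟨a', ha'⟩ := hf'
  have h : (n : ℤ) ≠ 0 := by exact_mod_cast hn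
  have h1 : ord P ((f * f' : Fˣ) : F) = n * (a + a') := by rw [ou_mul, ha, ha']; ring
  unfold w
  rw [h1, ha, ha', Int.mul_ediv_cancel_left _ h, Int.mul_ediv_cancel_left _ h,
    Int.mul_ediv_cancel_left _ h, lc_mul]
  module

theorem w_mul_right {n : ℕ} (hn : n ≠ 0) {P : Plk k F} (f : Fˣ) {g g' : Fˣ}
    (hg : (n : ℤ) ∣ ord P (g : F)) (hg' : (n : ℤ) ∣ ord P (g' : F)) :
    w n P f (g * g') = w n P f g + w n P f g' := by
  rw [w_skew, w_mul_left hn f hg hg', w_skew n P f g, w_skew n P f g']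
  abel

theorem w_eq_zero (n : ℕ) {P : Plk k F} {f g : Fˣ} (hf : ord P (f : F) = 0)
    (hg : ord P (g : F) = 0) : w n P f g = 0 := by
  simp [w, hf, hg]

theorem w_level {m n : ℕ} (hm : m ≠ 0) (hn : n ≠ 0) {P : Plk k F} {f g : Fˣ}
    (hf : ((m * n : ℕ) : ℤ) ∣ ord P (f : F)) (hg : (n : ℤ) ∣ ord P (g : F)) :
    w (m * n) P f (g ^ m) = w n P f g := by
  obtain ⟨a, ha⟩ := hf
  obtain ⟨b, hb⟩ := hg
  rw [w_eq (mul_ne_zero hm hn) ha (b := b) (by rw [ou_pow, hb]; push_cast; ring),
    w_eq hn (a := m * a) (by rw [ha]; push_cast; ring) hb, lc_pow]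
  push_cast
  module

theorem w_self {n : ℕ} (P : Plk k F) (f : Fˣ) :
    w n P f f = ((n : ℤ) * (ord P (f : F) / n)) • sg k := by
  obtain ⟨c, hc⟩ : ∃ c : ℤ, (ord P (f : F) / n) * (ord P (f : F) / n) = ord P (f : F) / n + 2 * c := by
    obtain ⟨c, hc⟩ := Int.even_mul_pred_self (ord P (f : F) / n)
    exact ⟨c, by linear_combination hc⟩
  unfold w
  rw [mul_assoc, hc]
  linear_combination (norm := module) ((n : ℤ) * c) • two_sg (k := k)

/-- `{x, -x} = 1` -/
theorem w_neg_self (P : Plk k F) (x : Fˣ) : w 1 P x (-x) = 0 := by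
  obtain ⟨c, hc⟩ : ∃ c : ℤ, ord P (x : F) * ord P (x : F) = ord P (x : F) + 2 * c := by
    obtain ⟨c, hc⟩ := Int.even_mul_pred_self (ord P (x : F))
    exact ⟨c, by linear_combination hc⟩
  rw [w_one, ou_neg, lc_neg, hc]
  linear_combination (norm := module) c • two_sg (k := k)

theorem w_steinberg_aux {P : Plk k F} {x y : Fˣ} (h : (x : F) + y = 1) (hx : 0 < ord P (x : F)) :
    w 1 P x y = 0 := by
  have h1 : Val P (y : F) 1 := by
    have h2 : (y : F) = 1 - x := by rw [← h]; ring
    have h3 := (Val.one P).sub (Val.zero_iff.2 (mem_Mge_one_of_pos hx))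
    rwa [sub_zero, ← h2] at h3
  rw [w_one, (h1.unit one_ne_zero).2, lc_eq_zero h1]
  simp

/-- **the Steinberg relation** -/
theorem w_steinberg (P : Plk k F) {x y : Fˣ} (h : (x : F) + y = 1) : w 1 P x y = 0 := by
  rcases lt_trichotomy 0 (ord P (x : F)) with hx | hx | hx
  · exact w_steinberg_aux h hx
  · rcases lt_trichotomy 0 (ord P (y : F)) with hy | hy | hy
    · rw [w_skew, w_steinberg_aux (by rw [add_comm, h]) hy, neg_zero]
    · exact w_eq_zero 1 hx.symm hy.symm
    · exfalso
      have h1 := ord_add_of_lt (P := P) y.ne_zero (w := (x : F)) (mem_Mge.2 (Or.inr (by omega)))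
      rw [add_comm, h, ord_one] at h1
      omega
  · have h2 : Val P ((y / x : Fˣ) : F) ((-1 : kˣ) : k) := by
      have h3 : ((y / x : Fˣ) : F) = (x : F)⁻¹ - 1 := by
        have h4 : (y : F) = 1 - x := by rw [← h]; ring
        rw [Units.val_div_eq_div_val, h4]
        field_simp
      have h5 : Val P (x : F)⁻¹ 0 :=
        Val.zero_iff.2 (mem_Mge_one_of_pos (by rw [ord_inv]; omega))
      have h6 := h5.sub (Val.one P)
      rw [h3]
      simpa using h6
    have h7 : ord P (y : F) = ord P (x : F) := by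
      have := (h2.unit (Units.ne_zero _)).2
      rw [ou_div] at this
      omega
    have h8 : lc P y = sg k + lc P x := by
      have := lc_eq h2
      rw [lc_div, sub_eq_iff_eq_add] at this
      exact this
    have h9 := w_neg_self P x
    rw [w_one, ou_neg, lc_neg] at h9
    rw [w_one, h7, h8, h9]

end P027M.K
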