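import Vale.Agent.P027M.K.Red

/-!
# Block K, file 3: the projection formula for the tame symbol
-/

set_option linter.unusedSectionVars false

namespace P027M.K

open Vale.Agent.P019P P025H492 P025H816 Polynomial

variable {k K L : Type*} [Field k] [Field K] [Field L] [Algebra k K] [Algebra k L]
  [Algebra K L] [IsScalarTower k K L] [CFF k K] [CFF k L] [FiniteDimensional K L]

theorem pow_mem_Mge {F : Type*} [Field F] [Algebra k F] [CFF k F] {P : Plk k F} {x : F}
    (h : ord P x = 1) (j : ℕ) : x ^ j ∈ Mge P j :=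
  mem_Mge.2 (Or.inr (by rw [ord_pow, h, mul_one]))

theorem ord_norm_eis {Q : Plk k L} {x : L} (h1 : ord Q x = 1)
    (h2 : ∀ Q' : Plk k L, down K Q' = down K Q → Q' ≠ Q → Val Q' x 1) :
    ord (down K Q) (Algebra.norm K x) = 1 := by
  rw [ord_norm, Finset.sum_eq_single Q, h1]
  · intro Q' hQ' hne
    exact ((h2 Q' (mem_over.1 hQ') hne).unit one_ne_zero).2
  · intro h
    exact absurd (mem_over.2 rfl) h

/-- (EIS) the Eisenstein computation -/
theorem eis {Q : Plk k L} {x : L} (h1 : ord Q x = 1)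
    (h2 : ∀ Q' : Plk k L, down K Q' = down K Q → Q' ≠ Q → Val Q' x 1) :
    (∃ m' : ℕ, ram K Q + m' = Module.finrank K L ∧
      Red (down K Q) (chi K x) (X ^ ram K Q * (X - C 1) ^ m')) ∧
    Val Q (algebraMap K L (Algebra.norm K x) / x ^ ram K Q) ((-1) ^ (ram K Q + 1)) := by
  classical
  have hx0 : x ≠ 0 := by
    rintro rfl
    rw [ord_zero] at h1
    omega
  obtain ⟨m, m', hmm, hr⟩ := exists_red_chi (K := K) (P := down K Q) (x := x) (a := 0) (b := 1)
    fun Q' hQ' => by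
      by_cases h : Q' = Q
      · subst h
        exact Or.inl (Val.zero_iff.2 (mem_Mge_one_of_pos (by omega)))
      · exact Or.inr (h2 Q' hQ' h)
  rw [C_0, sub_zero] at hr
  set e := ram K Q with he
  set a : ℕ → L := fun j => algebraMap K L ((chi K x).coeff j) with ha
  have hlt : ∀ j, j < m → a j ∈ Mge Q e := by
    intro j hj
    have h3 := hr j
    rw [coeff_X_pow_mul', if_neg (by omega), Val.zero_iff] at h3
    have := mge_up (n := 1) h3
    simpa using this
  have hall : ∀ j, a j ∈ Mge Q 0 := fun j => (Val.up (hr j)).mem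
  have hm' : Val (down K Q) ((chi K x).coeff m) ((-1) ^ m') := by
    have h3 := hr m
    rw [coeff_X_pow_mul', if_pos le_rfl, Nat.sub_self, coeff_zero_eq_eval_zero] at h3
    simpa using h3
  have ham : Val Q (a m) ((-1) ^ m') := Val.up hm'
  have hc0 : (chi K x).coeff 0 = (-1) ^ (m + m') * Algebra.norm K x := by
    rw [coeff_zero_eq_eval_zero, chi_eval, map_zero, zero_sub, hmm, ← Algebra.norm_algebraMap,
      ← map_mul]
    simp
  have hs0 : ((-1 : K) ^ (m + m')) ≠ 0 := pow_ne_zero _ (neg_ne_zero.2 one_ne_zero)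
  have ho0 : ord (down K Q) ((chi K x).coeff 0) = 1 := by
    rw [hc0, ord_mul _ hs0 (norm_ne_zero' hx0), ord_pow, ord_neg, ord_one, ord_norm_eis h1 h2]
    simp
  have hm0 : m ≠ 0 := by
    rintro rfl
    have := (hm'.unit (pow_ne_zero _ (neg_ne_zero.2 one_ne_zero))).2
    omega
  have ha0 : a 0 ≠ 0 := by
    rw [ha]
    simp only [ne_eq, map_eq_zero]
    rw [hc0]
    exact mul_ne_zero hs0 (norm_ne_zero' hx0)
  have hoa0 : ord Q (a 0) = e := by
    rw [ha]
    simp only
    rw [ord_algebraMap, ho0, mul_one]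
  have hamu := ham.unit (pow_ne_zero _ (neg_ne_zero.2 one_ne_zero))
  have htm0 : a m * x ^ m ≠ 0 := mul_ne_zero hamu.1 (pow_ne_zero _ hx0)
  have hotm : ord Q (a m * x ^ m) = m := by
    rw [ord_mul _ hamu.1 (pow_ne_zero _ hx0), hamu.2, ord_pow, h1]; simp
  have hsum : ∑ j ∈ Finset.range (Module.finrank K L + 1), a j * x ^ j = 0 := by
    have h3 := chi_aeval (K := K) x
    rw [aeval_eq_sum_range, chi_natDegree] at h3
    simpa [Algebra.smul_def] using h3
  have hkey : a 0 + a m * x ^ m ∈ Mge Q ((min e m : ℕ) + 1) := by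
    rw [← Finset.add_sum_erase _ _ (Finset.mem_range.2 (Nat.succ_pos _)),
      ← Finset.add_sum_erase _ _ (a := m)
        (Finset.mem_erase.2 ⟨hm0, Finset.mem_range.2 (by omega)⟩), pow_zero, mul_one,
      ← add_assoc, add_eq_zero_iff_eq_neg] at hsum
    rw [hsum]
    refine neg_mem (Submodule.sum_mem _ fun j hj => ?_)
    have hj1 := (Finset.mem_erase.1 hj).1
    have hj2 := (Finset.mem_erase.1 (Finset.mem_erase.1 hj).2).1
    rcases lt_or_gt_of_ne hj1 with hj3 | hj3
    · exact Mge_mono Q (by omega) (mul_mem_Mge (hlt j hj3) (pow_mem_Mge h1 j))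
    · exact Mge_mono Q (by omega) (mul_mem_Mge (hall j) (pow_mem_Mge h1 j))
  have hme : m = e := by
    rcases lt_trichotomy m e with h | h | h
    · exfalso
      have h3 : a 0 ∈ Mge Q ((min e m : ℕ) + 1) := mem_Mge.2 (Or.inr (by omega))
      have h4 := sub_mem hkey h3
      rw [add_sub_cancel_left] at h4
      rcases mem_Mge.1 h4 with h5 | h5
      · exact htm0 h5
      · omega
    · exact h
    · exfalso
      have h3 : a m * x ^ m ∈ Mge Q ((min e m : ℕ) + 1) := mem_Mge.2 (Or.inr (by omega))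
      have h4 := sub_mem hkey h3
      rw [add_sub_cancel_right] at h4
      rcases mem_Mge.1 h4 with h5 | h5
      · exact ha0 h5
      · omega
  subst hme
  refine ⟨⟨m', hmm, hr⟩, ?_⟩
  have h3 : Val Q (a 0 / x ^ e + a e) 0 := by
    rw [Val.zero_iff]
    have h4 : a 0 + a e * x ^ e = x ^ e * (a 0 / x ^ e + a e) := by field_simp
    rw [h4, mul_mem_Mge_iff (pow_ne_zero _ hx0), ord_pow, h1] at hkey
    simpa using hkey
  have h4 := (h3.sub ham).mul (Val.const Q ((-1 : k) ^ (e + m')))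
  have h5 : (a 0 / x ^ e + a e - a e) * algebraMap k L ((-1 : k) ^ (e + m')) =
      algebraMap K L (Algebra.norm K x) / x ^ e := by
    rw [add_sub_cancel_right, ha]
    simp only
    rw [hc0, map_mul, map_pow, map_pow, map_neg, map_neg, map_one, map_one]
    have h6 : ((-1 : L) ^ (e + m')) * (-1) ^ (e + m') = 1 := by
      rw [← mul_pow]; simp
    linear_combination (algebraMap K L (Algebra.norm K x) / x ^ e) * h6
  have h6 : (0 - (-1 : k) ^ m') * (-1) ^ (e + m') = (-1) ^ (e + 1) := by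
    have h7 : ((-1 : k) ^ m') * (-1) ^ m' = 1 := by
      rw [← mul_pow]; simp
    rw [pow_add, pow_add]
    linear_combination (-(-1 : k) ^ e) * h7
  rwa [h5, h6] at h4

/-- the norm of an element with value `c` at `Q` and `1` at the other places -/
theorem val_norm_uc {Q : Plk k L} {x : L} (h1 : ord Q x = 1)
    (h2 : ∀ Q' : Plk k L, down K Q' = down K Q → Q' ≠ Q → Val Q' x 1) (c : k) :
    Val (down K Q) (Algebra.norm K (algebraMap k L c + algebraMap k L (1 - c) * x))
      (c ^ ram K Q) := by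
  by_cases hc : c = 1
  · subst hc
    simpa using Val.one (down K Q)
  obtain ⟨⟨m', hm, hr⟩, -⟩ := eis h1 h2
  have hc1 : c - 1 ≠ 0 := sub_ne_zero.2 hc
  have h3 := hr.eval (c / (c - 1))
  rw [chi_eval] at h3
  have h4 := ((Val.const (down K Q) (c - 1)).pow (Module.finrank K L)).mul h3
  rw [← Algebra.norm_algebraMap (S := L), ← map_mul, ← IsScalarTower.algebraMap_apply,
    ← IsScalarTower.algebraMap_apply, mul_sub, ← map_mul, mul_div_cancel₀ _ hc1] at h4
  have h5 : algebraMap k L c - algebraMap k L (c - 1) * x =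
      algebraMap k L c + algebraMap k L (1 - c) * x := by
    rw [map_sub, map_sub]; ring
  have h6 : (c - 1) ^ Module.finrank K L *
      eval (c / (c - 1)) (X ^ ram K Q * (X - C 1) ^ m') = c ^ ram K Q := by
    rw [eval_mul, eval_pow, eval_pow, eval_sub, eval_X, eval_C, ← hm, pow_add]
    have h7 : c / (c - 1) - 1 = 1 / (c - 1) := by field_simp; ring
    rw [h7, div_pow, div_pow, one_pow]
    field_simp
  rwa [h5, h6] at h4

variable (L) in
/-- inclusion of units -/
noncomputable def jU : Kˣ →* Lˣ := Units.map (algebraMap K L : K →* L)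

variable (K) in
/-- norm of units -/
noncomputable def nU : Lˣ →* Kˣ := Units.map (Algebra.norm K : L →* K)

theorem jU_val (f : Kˣ) : ((jU L f : Lˣ) : L) = algebraMap K L f := rfl

theorem nU_val (g : Lˣ) : ((nU K g : Kˣ) : K) = Algebra.norm K (g : L) := rfl

variable (L) in
/-- the fibre of a place -/
noncomputable abbrev fib (P : Plk k K) : Finset (Plk k L) := (over_finite (L := L) P).toFinset

theorem ord_jU (Q : Plk k L) (f : Kˣ) :
    ord Q ((jU L f : Lˣ) : L) = ram K Q * ord (down K Q) (f : K) := ord_algebraMap Q _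

theorem ord_nU (P : Plk k K) (g : Lˣ) :
    ord P ((nU K g : Kˣ) : K) = ∑ Q ∈ fib L P, ord Q (g : L) := ord_norm P _

theorem lc_jU {Q : Plk k L} {u : Kˣ} (h : ord (down K Q) (u : K) = 0) :
    lc Q (jU L u) = lc (down K Q) u := lc_eq (Val.up (lc_val h))

theorem exists_eis (Q : Plk k L) : ∃ x : Lˣ, ord Q (x : L) = 1 ∧
    ∀ Q' : Plk k L, down K Q' = down K Q → Q' ≠ Q → Val Q' (x : L) 1 := by
  classical
  obtain ⟨z, hz⟩ := weak_appr (fib L (down K Q)) (fun Q' => if Q' = Q then (un Q : L) else 1) 2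
  have h1 := hz Q (mem_over.2 rfl)
  simp only [if_true] at h1
  have h2 := ord_add_of_lt (P := Q) (un Q).ne_zero (w := z - un Q) (by rw [ord_un]; exact h1)
  rw [add_sub_cancel, ord_un] at h2
  refine ⟨Units.mk0 z h2.1, h2.2, fun Q' hQ' hne => ?_⟩
  have h3 := hz Q' (mem_over.2 hQ')
  simp only [if_neg hne] at h3
  unfold Val
  rw [map_one]
  exact Mge_mono Q' (by norm_num) h3

theorem w1_mul_left {F : Type*} [Field F] [Algebra k F] [CFF k F] (P : Plk k F) (f f' g : Fˣ) :
    w 1 P (f * f') g = w 1 P f g + w 1 P f' g :=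
  w_mul_left one_ne_zero g (by simp) (by simp)

theorem w1_mul_right {F : Type*} [Field F] [Algebra k F] [CFF k F] (P : Plk k F) (f g g' : Fˣ) :
    w 1 P f (g * g') = w 1 P f g + w 1 P f g' :=
  w_mul_right one_ne_zero f (by simp) (by simp)

theorem w1_inv_right {F : Type*} [Field F] [Algebra k F] [CFF k F] (P : Plk k F) (f g : Fˣ) :
    w 1 P f g⁻¹ = -w 1 P f g := by
  rw [w_one, w_one, ou_inv, lc_inv]; module

theorem w1_zpow_left {F : Type*} [Field F] [Algebra k F] [CFF k F] (P : Plk k F) (f g : Fˣ)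
    (n : ℤ) : w 1 P (f ^ n) g = n • w 1 P f g := by
  rw [w_one, w_one, ou_zpow, lc_zpow]; module

variable (L) in
/-- the elements for which the projection formula holds -/
def pfS (P : Plk k K) (f : Kˣ) : Subgroup Lˣ where
  carrier := {g | w 1 P f (nU K g) = ∑ Q ∈ fib L P, w 1 Q (jU L f) g}
  one_mem' := by simp [w_one, lc_one, ord_one]
  mul_mem' {g g'} hg hg' := by
    rw [Set.mem_ofPred_eq] at *
    rw [map_mul, w1_mul_right, hg, hg', ← Finset.sum_add_distrib]
    exact Finset.sum_congr rfl fun Q _ => (w1_mul_right _ _ _ _).symm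
  inv_mem' {g} hg := by
    rw [Set.mem_ofPred_eq] at *
    rw [map_inv, w1_inv_right, hg, ← Finset.sum_neg_distrib]
    exact Finset.sum_congr rfl fun Q _ => (w1_inv_right _ _ _).symm

theorem mem_pfS {P : Plk k K} {f : Kˣ} {g : Lˣ} :
    g ∈ pfS L P f ↔ w 1 P f (nU K g) = ∑ Q ∈ fib L P, w 1 Q (jU L f) g := Iff.rfl

theorem mem_pfS_unit {P : Plk k K} {π : Kˣ} (hπ : ord P (π : K) = 1) {g : Lˣ}
    (hg : ∀ Q ∈ fib L P, ord Q (g : L) = 0)
    (h : lc P (nU K g) = ∑ Q ∈ fib L P, (ram K Q : ℤ) • lc Q g) : g ∈ pfS L P π := by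
  have h1 : ord P ((nU K g : Kˣ) : K) = 0 := by rw [ord_nU]; exact Finset.sum_eq_zero hg
  rw [mem_pfS, w_one, h1, hπ, h]
  simp only [mul_zero, zero_smul, add_zero, zero_sub, one_smul]
  rw [← Finset.sum_neg_distrib]
  refine Finset.sum_congr rfl fun Q hQ => ?_
  rw [w_one, hg Q hQ, ord_jU, mem_over.1 hQ, hπ]
  simp

theorem mem_pfS_eis {Q : Plk k L} {π : Kˣ} (hπ : ord (down K Q) (π : K) = 1) {x : Lˣ}
    (h1 : ord Q (x : L) = 1)
    (h2 : ∀ Q' : Plk k L, down K Q' = down K Q → Q' ≠ Q → Val Q' (x : L) 1) :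
    x ∈ pfS L (down K Q) π := by
  have h3 : ord (down K Q) ((nU K x : Kˣ) : K) = 1 := ord_norm_eis h1 h2
  have h4 : lc Q (jU L (nU K x) / x ^ ram K Q) = ((ram K Q : ℤ) + 1) • sg k := by
    have h5 := (eis h1 h2).2
    rw [lc_eq (c := (-1) ^ (ram K Q + 1)) (by simpa [jU_val, nU_val] using h5)]
    rw [ofMul_pow, ← natCast_zsmul]
    simp [sg]
  have h5 : lc Q (jU L (nU K x / π)) = lc (down K Q) (nU K x / π) :=
    lc_jU (by rw [ou_div, h3, hπ, sub_self])
  rw [_root_.map_div, lc_div, lc_div] at h5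
  rw [lc_div, lc_pow] at h4
  rw [mem_pfS, Finset.sum_eq_single Q, w_one, w_one, h3, hπ, h1, ord_jU, hπ]
  · linear_combination (norm := module) h5 - h4 - (ram K Q : ℤ) • two_sg (k := k)
  · intro Q' hQ' hne
    have h6 := h2 Q' (mem_over.1 hQ') hne
    rw [w_one, (h6.unit one_ne_zero).2, lc_eq_zero h6]
    simp
  · intro h
    exact absurd (mem_over.2 rfl) h

theorem exists_uc {P : Plk k K} {π : Kˣ} (hπ : ord P (π : K) = 1) {Q : Plk k L}
    (hQ : down K Q = P) (c : kˣ) : ∃ t : Lˣ, t ∈ pfS L P π ∧ Val Q (t : L) (c : k) ∧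
      ∀ Q' : Plk k L, down K Q' = P → Q' ≠ Q → Val Q' (t : L) 1 := by
  subst hQ
  obtain ⟨x, h1, h2⟩ := exists_eis (K := K) Q
  have h3 : Val Q (algebraMap k L c + algebraMap k L (1 - c) * x) c := by
    have := (Val.const Q (c : k)).add ((Val.const Q (1 - c : k)).mul
      (Val.zero_iff.2 (mem_Mge_one_of_pos (P := Q) (z := (x : L)) (by omega))))
    simpa using this
  have h4 : ∀ Q' : Plk k L, down K Q' = down K Q → Q' ≠ Q →
      Val Q' (algebraMap k L c + algebraMap k L (1 - c) * x) 1 := by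
    intro Q' hQ' hne
    have := (Val.const Q' (c : k)).add ((Val.const Q' (1 - c : k)).mul (h2 Q' hQ' hne))
    simpa using this
  let t : Lˣ := Units.mk0 _ (h3.unit c.ne_zero).1
  refine ⟨t, mem_pfS_unit hπ (fun Q' hQ' => ?_) ?_, h3, h4⟩
  · by_cases h : Q' = Q
    · subst h; exact (h3.unit c.ne_zero).2
    · exact ((h4 Q' (mem_over.1 hQ') h).unit one_ne_zero).2
  · rw [Finset.sum_eq_single Q, lc_eq (u := t) h3,
      lc_eq (u := nU K t) (c := c ^ ram K Q) (by
        rw [Units.val_pow_eq_pow_val]; exact val_norm_uc h1 h2 c), ofMul_pow,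
      natCast_zsmul]
    · intro Q' hQ' hne
      rw [lc_eq_zero (u := t) (h4 Q' (mem_over.1 hQ') hne), smul_zero]
    · intro h
      exact absurd (mem_over.2 rfl) h

theorem mem_pfS_of_unit {P : Plk k K} {π : Kˣ} (hπ : ord P (π : K) = 1) {g : Lˣ}
    (hg : ∀ Q ∈ fib L P, ord Q (g : L) = 0) : g ∈ pfS L P π := by
  classical
  have h1 : ∀ Q : Plk k L, ∃ t : Lˣ, Q ∈ fib L P → t ∈ pfS L P π ∧
      Val Q (t : L) ((lc Q g).toMul : kˣ) ∧
      ∀ Q' : Plk k L, down K Q' = P → Q' ≠ Q → Val Q' (t : L) 1 := by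
    intro Q
    by_cases hQ : Q ∈ fib L P
    · obtain ⟨t, ht⟩ := exists_uc hπ (mem_over.1 hQ) (lc Q g).toMul
      exact ⟨t, fun _ => ht⟩
    · exact ⟨1, fun h => absurd h hQ⟩
  choose t ht using h1
  have h2 : ∀ Q ∈ fib L P, Val Q ((g / ∏ Q' ∈ fib L P, t Q' : Lˣ) : L) 1 := by
    intro Q hQ
    refine val_one_of_lc ?_ ?_
    · rw [ou_div, hg Q hQ, ou_prod, Finset.sum_eq_zero, sub_zero]
      intro Q' hQ'
      by_cases h : Q = Q'
      · subst h; exact ((ht Q hQ).2.1.unit (Units.ne_zero _)).2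
      · exact (((ht Q' hQ').2.2 Q (mem_over.1 hQ) h).unit one_ne_zero).2
    · rw [lc_div, lc_prod, Finset.sum_eq_single Q, lc_eq (ht Q hQ).2.1]
      · simp
      · intro Q' hQ' hne
        exact lc_eq_zero ((ht Q' hQ').2.2 Q (mem_over.1 hQ) hne.symm)
      · intro h
        exact absurd hQ h
  have h3 : (g / ∏ Q' ∈ fib L P, t Q') ∈ pfS L P π := by
    refine mem_pfS_unit hπ (fun Q hQ => ((h2 Q hQ).unit one_ne_zero).2) ?_
    rw [lc_eq_zero (val_norm_one fun Q hQ => h2 Q (mem_over.2 hQ)), Finset.sum_eq_zero]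
    intro Q hQ
    rw [lc_eq_zero (h2 Q hQ), smul_zero]
  have h4 := mul_mem h3 (Subgroup.prod_mem _ fun Q (hQ : Q ∈ fib L P) => (ht Q hQ).1)
  rwa [div_mul_cancel] at h4

theorem mem_pfS_unif {P : Plk k K} {π : Kˣ} (hπ : ord P (π : K) = 1) (g : Lˣ) :
    g ∈ pfS L P π := by
  classical
  choose x hx using fun Q : Plk k L => exists_eis (K := K) Q
  have h1 : (∏ Q ∈ fib L P, x Q ^ ord Q (g : L)) ∈ pfS L P π := by
    refine Subgroup.prod_mem _ fun Q hQ => zpow_mem ?_ _
    obtain rfl := mem_over.1 hQ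
    exact mem_pfS_eis hπ (hx Q).1 (hx Q).2
  have h2 : (g / ∏ Q ∈ fib L P, x Q ^ ord Q (g : L)) ∈ pfS L P π := by
    refine mem_pfS_of_unit hπ fun Q hQ => ?_
    rw [ou_div, ou_prod, Finset.sum_eq_single Q, ou_zpow, (hx Q).1, mul_one, sub_self]
    · intro Q' hQ' hne
      rw [ou_zpow, (((hx Q').2 Q ((mem_over.1 hQ).trans (mem_over.1 hQ').symm) hne.symm).unit
        one_ne_zero).2, mul_zero]
    · intro h
      exact absurd hQ h
  have h3 := mul_mem h2 h1
  rwa [div_mul_cancel] at h3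

/-- **the projection formula** -/
theorem proj (P : Plk k K) (f : Kˣ) (g : Lˣ) :
    w 1 P f (nU K g) = ∑ Q ∈ fib L P, w 1 Q (jU L f) g := by
  obtain ⟨u, hu, hf⟩ : ∃ u : Kˣ, ord P (u : K) = 0 ∧ f = u * un P ^ ord P (f : K) :=
    ⟨_, ord_nrm P f, by rw [mul_assoc, ← zpow_add]; simp⟩
  rw [hf, w1_mul_left, w1_zpow_left, mem_pfS.1 (mem_pfS_unif (ord_un P) g), w_one, hu, ord_nU]
  simp only [zero_mul, zero_smul, zero_add, sub_zero]
  rw [zsum_smul, zsmul_sum', ← Finset.sum_add_distrib]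
  refine Finset.sum_congr rfl fun Q hQ => ?_
  obtain rfl := mem_over.1 hQ
  rw [map_mul, map_zpow, w1_mul_left, w1_zpow_left, w_one Q (jU L u), ord_jU, hu, lc_jU hu]
  simp

end P027M.K
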