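import Vale.Agent.P027M.K.Loc

/-!
# Block K, file 2: reduction of polynomials at a place, characteristic polynomials
-/

set_option linter.unusedSectionVars false

namespace P027M.K

open Vale.Agent.P019P P025H492 P025H816 Polynomial

section red

variable {k F : Type*} [Field k] [Field F] [Algebra k F] [CFF k F]

/-- a polynomial with integral values at almost all constants has integral coefficients -/
theorem coeff_mem_of_eval (P : Plk k F) (n : ℕ) : ∀ (χ : F[X]) (S : Finset k), χ.natDegree ≤ n →
    (∀ c : k, c ∉ S → χ.eval (algebraMap k F c) ∈ Mge P 0) → ∀ j, χ.coeff j ∈ Mge P 0 := by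
  classical
  have : IsAlgClosed k := CFF.ac F
  induction n with
  | zero =>
    intro χ S hd h j
    obtain ⟨c, hc⟩ := Infinite.exists_notMem_finset S
    have h1 := h c hc
    rw [eq_C_of_natDegree_le_zero hd, eval_C] at h1
    rw [eq_C_of_natDegree_le_zero hd, coeff_C]
    split_ifs
    · exact h1
    · exact zero_mem _
  | succ n ih =>
    intro χ S hd h j
    obtain ⟨c, hc⟩ := Infinite.exists_notMem_finset S
    set a := algebraMap k F c with ha
    have h1 : χ = C (χ.eval a) + (X - C a) * (χ /ₘ (X - C a)) := by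
      rw [← modByMonic_X_sub_C_eq_C_eval]
      exact (modByMonic_add_div χ (X - C a)).symm
    have h2 : (χ /ₘ (X - C a)).natDegree ≤ n := by
      rw [natDegree_divByMonic _ (monic_X_sub_C a), natDegree_X_sub_C]
      omega
    have h3 := ih (χ /ₘ (X - C a)) (insert c S) h2 fun d hd => by
      rw [Finset.mem_insert, not_or] at hd
      have h4 : algebraMap k F (d - c) ≠ 0 := by
        rw [Ne, map_eq_zero, sub_eq_zero]; exact hd.1
      have h5 := congrArg (eval (algebraMap k F d)) h1
      rw [eval_add, eval_C, eval_mul, eval_sub, eval_X, eval_C, ha, ← map_sub] at h5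
      have h6 : algebraMap k F (d - c) * eval (algebraMap k F d) (χ /ₘ (X - C a)) ∈ Mge P 0 := by
        have h7 := sub_mem (h d hd.2) (h c hc)
        rw [h5, add_sub_cancel_left] at h7
        exact h7
      rwa [mul_mem_Mge_iff h4, ord_const, sub_zero] at h6
    rw [h1, coeff_add, sub_mul, coeff_sub, coeff_C_mul]
    refine add_mem ?_ (sub_mem ?_ ?_)
    · rw [coeff_C]
      split_ifs
      · exact h c hc
      · exact zero_mem _
    · cases j with
      | zero => rw [coeff_X_mul_zero]; exact zero_mem _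
      | succ j => rw [coeff_X_mul]; exact h3 j
    · have := mul_mem_Mge (const_mem P c) (h3 j)
      rwa [add_zero] at this

/-- `ψ` is the reduction of `χ` at `P` -/
def Red (P : Plk k F) (χ : F[X]) (ψ : k[X]) : Prop := ∀ j, Val P (χ.coeff j) (ψ.coeff j)

theorem exists_red {P : Plk k F} {χ : F[X]} (hm : χ.Monic) (h : ∀ j, χ.coeff j ∈ Mge P 0) :
    ∃ ψ : k[X], Red P χ ψ ∧ ψ.Monic ∧ ψ.natDegree = χ.natDegree := by
  classical
  choose c hc using fun j => exists_val (h j)
  let ψ : k[X] := ∑ j ∈ Finset.range (χ.natDegree + 1), monomial j (c j)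
  have h1 : ∀ j, ψ.coeff j = if j ≤ χ.natDegree then c j else 0 := by
    intro j
    simp only [ψ, finsetSum_coeff, coeff_monomial, Finset.sum_ite_eq', Finset.mem_range,
      Nat.lt_succ_iff]
  have h2 : ψ.coeff χ.natDegree = 1 := by
    rw [h1, if_pos le_rfl]
    refine (hc _).unique ?_
    rw [hm.coeff_natDegree]
    exact Val.one P
  have h3 : ψ.natDegree ≤ χ.natDegree := by
    rw [natDegree_le_iff_coeff_eq_zero]
    intro j hj
    rw [h1, if_neg (by omega)]
  refine ⟨ψ, fun j => ?_, monic_of_natDegree_le_of_coeff_eq_one _ h3 h2,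
    le_antisymm h3 (le_natDegree_of_ne_zero (by rw [h2]; exact one_ne_zero))⟩
  rw [h1]
  split_ifs with hj
  · exact hc j
  · rw [coeff_eq_zero_of_natDegree_lt (by omega), Val.zero_iff]
    exact zero_mem _

theorem Red.eval {P : Plk k F} {χ : F[X]} {ψ : k[X]} (h : Red P χ ψ) (c : k) :
    Val P (χ.eval (algebraMap k F c)) (ψ.eval c) := by
  rw [eval_eq_sum_range' (n := χ.natDegree + ψ.natDegree + 1) (by omega),
    eval_eq_sum_range' (n := χ.natDegree + ψ.natDegree + 1) (by omega)]
  exact Val.sum _ fun j _ => (h j).mul ((Val.const P c).pow j)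

theorem eq_pow_mul_pow {k : Type*} [Field k] [IsAlgClosed k] (a b : k) (n : ℕ) :
    ∀ ψ : k[X], ψ.Monic → ψ.natDegree = n → (∀ c, ψ.eval c = 0 → c = a ∨ c = b) →
      ∃ m m' : ℕ, ψ = (X - C a) ^ m * (X - C b) ^ m' := by
  induction n with
  | zero =>
    intro ψ hm hd _
    exact ⟨0, 0, by rw [hm.natDegree_eq_zero.1 hd]; simp⟩
  | succ n ih =>
    intro ψ hm hd h
    obtain ⟨r, hr⟩ := IsAlgClosed.exists_root ψ (by
      rw [degree_eq_natDegree hm.ne_zero, hd]; exact_mod_cast Nat.succ_ne_zero n)
    obtain ⟨q, hq⟩ := dvd_iff_isRoot.2 hr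
    have hqm : q.Monic := (monic_X_sub_C r).of_mul_monic_left (hq ▸ hm)
    have hqd : q.natDegree = n := by
      have := (monic_X_sub_C r).natDegree_mul hqm
      rw [← hq, hd, natDegree_X_sub_C] at this
      omega
    obtain ⟨m, m', hmm⟩ := ih q hqm hqd fun c hc => h c (by rw [hq, eval_mul, hc, mul_zero])
    rcases h r hr with rfl | rfl
    · exact ⟨m + 1, m', by rw [hq, hmm]; ring⟩
    · exact ⟨m, m' + 1, by rw [hq, hmm]; ring⟩

end red

section ext

variable {k K L : Type*} [Field k] [Field K] [Field L] [Algebra k K] [Algebra k L]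
  [Algebra K L] [IsScalarTower k K L] [CFF k K] [CFF k L] [FiniteDimensional K L]

theorem mge_up {Q : Plk k L} {z : K} {n : ℕ} (h : z ∈ Mge (down K Q) n) :
    algebraMap K L z ∈ Mge Q ((ram K Q : ℤ) * n) := by
  rcases mem_Mge.1 h with h | h
  · rw [h, map_zero]; exact zero_mem _
  · refine mem_Mge.2 (Or.inr ?_)
    rw [ord_algebraMap]
    exact mul_le_mul_of_nonneg_left h (by positivity)

theorem Val.up {Q : Plk k L} {z : K} {c : k} (h : Val (down K Q) z c) :
    Val Q (algebraMap K L z) c := by
  unfold Val at *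
  rw [IsScalarTower.algebraMap_apply k K L, ← map_sub]
  have h1 := mge_up (n := 1) h
  have := ram_pos (K := K) Q
  exact Mge_mono Q (by push_cast; omega) h1

variable (K) in
/-- the characteristic polynomial -/
noncomputable def chi (x : L) : K[X] := (Algebra.lmul K L x).charpoly

theorem chi_monic (x : L) : (chi K x).Monic := LinearMap.charpoly_monic _

theorem chi_natDegree (x : L) : (chi K x).natDegree = Module.finrank K L :=
  LinearMap.charpoly_natDegree _

theorem chi_aeval (x : L) : aeval x (chi K x) = 0 := Algebra.aeval_self_charpoly_lmul x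

theorem chi_eval (x : L) (t : K) : (chi K x).eval t = Algebra.norm K (algebraMap K L t - x) := by
  rw [chi, LinearMap.eval_charpoly, Algebra.norm_apply]
  congr 1
  ext y
  simp [Algebra.smul_def]

/-- the reduction of the characteristic polynomial of an element with two values -/
theorem exists_red_chi {P : Plk k K} {x : L} {a b : k}
    (h : ∀ Q : Plk k L, down K Q = P → Val Q x a ∨ Val Q x b) :
    ∃ m m' : ℕ, m + m' = Module.finrank K L ∧
      Red P (chi K x) ((X - C a) ^ m * (X - C b) ^ m') := by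
  have : IsAlgClosed k := CFF.ac K
  have hval : ∀ c : k, ∀ Q : Plk k L, down K Q = P →
      Val Q (algebraMap K L (algebraMap k K c) - x) (c - a) ∨
      Val Q (algebraMap K L (algebraMap k K c) - x) (c - b) := by
    intro c Q hQ
    rw [← IsScalarTower.algebraMap_apply]
    exact (h Q hQ).imp (fun h1 => (Val.const Q c).sub h1) fun h1 => (Val.const Q c).sub h1
  obtain ⟨ψ, hψ, hm, hd⟩ := exists_red (P := P) (chi_monic (K := K) x)
    (coeff_mem_of_eval P _ _ ∅ le_rfl fun c _ => by
      rw [chi_eval]
      refine mem_Mge.2 (Or.inr (ord_norm_nonneg fun Q hQ => ?_))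
      rcases hval c Q hQ with h1 | h1 <;> exact ord_nonneg_of_sub h1)
  obtain ⟨m, m', hmm⟩ := eq_pow_mul_pow a b _ ψ hm rfl fun c hc => by
    by_contra hcon
    rw [not_or] at hcon
    have h1 := hψ.eval c
    rw [hc, chi_eval] at h1
    obtain ⟨Q0, hQ0⟩ := exists_over (L := L) P
    have hu : ∀ Q : Plk k L, down K Q = P → algebraMap K L (algebraMap k K c) - x ≠ 0 ∧
        ord Q (algebraMap K L (algebraMap k K c) - x) = 0 := by
      intro Q hQ
      rcases hval c Q hQ with h2 | h2
      · exact h2.unit (sub_ne_zero.2 hcon.1)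
      · exact h2.unit (sub_ne_zero.2 hcon.2)
    refine h1.ne_zero (norm_ne_zero' (hu Q0 hQ0).1) ?_ rfl
    rw [ord_norm]
    exact Finset.sum_eq_zero fun Q hQ => (hu Q (mem_over.1 hQ)).2
  refine ⟨m, m', ?_, hmm ▸ hψ⟩
  rw [← chi_natDegree (K := K) x, ← hd, hmm,
    ((monic_X_sub_C a).pow m).natDegree_mul ((monic_X_sub_C b).pow m'),
    (monic_X_sub_C a).natDegree_pow, (monic_X_sub_C b).natDegree_pow]
  simp

/-- (N1) the norm of a `1`-unit is a `1`-unit -/
theorem val_norm_one {P : Plk k K} {y : L} (h : ∀ Q : Plk k L, down K Q = P → Val Q y 1) :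
    Val P (Algebra.norm K y) 1 := by
  obtain ⟨m, m', -, hr⟩ := exists_red_chi (K := K) (P := P) (x := 1 - y) (a := 0) (b := 0)
    fun Q hQ => Or.inl (by simpa using (Val.one Q).sub (h Q hQ))
  have h1 := hr.eval 1
  rw [chi_eval] at h1
  simpa using h1

end ext

end P027M.K
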