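import Vale.Agent.P027M.K.Proj

/-!
# Block K, file 4: Weil reciprocity and the pairing `e n f g` on functions
-/

set_option linter.unusedSectionVars false

namespace P027M.K

open Vale.Agent.P019P P025H492 P025H816 Polynomial IntermediateField

universe u

section one

variable {k F : Type u} [Field k] [Field F] [Algebra k F] [CFF k F]

variable (k) in
/-- the global symbol of level `n` (written additively) -/
noncomputable def e (n : ℕ) (f g : Fˣ) : Additive kˣ := ∑ᶠ P : Plk k F, w n P f g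

theorem e_eq_sum (n : ℕ) {f g : Fˣ} {S : Finset (Plk k F)}
    (h : ∀ P, P ∉ S → ord P (f : F) = 0 ∧ ord P (g : F) = 0) :
    e k n f g = ∑ P ∈ S, w n P f g := by
  refine finsum_eq_sum_of_support_subset _ fun P hP => ?_
  by_contra hc
  exact hP (w_eq_zero n (h P hc).1 (h P hc).2)

theorem ord_of_notMem {z : F} {P : Plk k F} (h : P ∉ (dv k z).support) : ord P z = 0 := by
  rwa [Finsupp.notMem_support_iff, dv_apply] at h

theorem w_finite (n : ℕ) (f g : Fˣ) :
    Function.HasFiniteSupport fun P : Plk k F => w n P f g := by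
  classical
  refine ((dv k (f : F)).support ∪ (dv k (g : F)).support).finite_toSet.subset fun P hP => ?_
  by_contra hc
  rw [Finset.mem_coe, Finset.mem_union, not_or] at hc
  exact hP (w_eq_zero n (ord_of_notMem hc.1) (ord_of_notMem hc.2))

theorem e_skew (n : ℕ) (f g : Fˣ) : e k n g f = -e k n f g := by
  rw [e, e, ← finsum_neg_distrib]
  exact finsum_congr fun P => w_skew n P f g

theorem e_mul_left {n : ℕ} (hn : n ≠ 0) {f f' : Fˣ} (g : Fˣ) (hf : f ∈ divU k F n)
    (hf' : f' ∈ divU k F n) : e k n (f * f') g = e k n f g + e k n f' g := by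
  rw [e, e, e, ← finsum_add_distrib (w_finite n f g) (w_finite n f' g)]
  exact finsum_congr fun P => w_mul_left hn g (hf P) (hf' P)

theorem e_mul_right {n : ℕ} (hn : n ≠ 0) (f : Fˣ) {g g' : Fˣ} (hg : g ∈ divU k F n)
    (hg' : g' ∈ divU k F n) : e k n f (g * g') = e k n f g + e k n f g' := by
  rw [e, e, e, ← finsum_add_distrib (w_finite n f g) (w_finite n f g')]
  exact finsum_congr fun P => w_mul_right hn f (hg P) (hg' P)

theorem e_level {m n : ℕ} (hm : m ≠ 0) (hn : n ≠ 0) {f g : Fˣ} (hf : f ∈ divU k F (m * n))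
    (hg : g ∈ divU k F n) : e k (m * n) f (g ^ m) = e k n f g :=
  finsum_congr fun P => w_level hm hn (hf P) (hg P)

theorem mem_divU_one (f : Fˣ) : f ∈ divU k F 1 := fun P => by simp

theorem e_one_right (n : ℕ) (f : Fˣ) : e k n f 1 = 0 := by
  rw [e, finsum_congr (g := fun _ => 0) fun P => by simp [w, lc_one, ord_one]]
  exact finsum_zero

theorem e_pow_right {n : ℕ} (hn : n ≠ 0) (f : Fˣ) {g : Fˣ} (hg : g ∈ divU k F n) (m : ℕ) :
    e k n f (g ^ m) = m • e k n f g := by
  induction m with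
  | zero => rw [pow_zero, e_one_right, zero_smul]
  | succ m ih => rw [pow_succ, e_mul_right hn f (pow_mem hg m) hg, ih, succ_nsmul]

theorem finsum_ord_smul (f : Fˣ) (a : Additive kˣ) :
    ∑ᶠ P : Plk k F, ord P (f : F) • a = 0 := by
  rw [finsum_eq_sum_of_support_subset (s := (dv k (f : F)).support) _ fun P hP => by
    by_contra hc
    exact hP (by simp only [ord_of_notMem hc, zero_smul])]
  have h := dg_dv (k := k) (f : F)
  rw [dg_eq_sum (S := (dv k (f : F)).support) fun P hP => Finsupp.notMem_support_iff.1 hP] at h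
  simp only [dv_apply] at h
  rw [← zsum_smul, h, zero_smul]

/-- the symbol is alternating -/
theorem e_self {n : ℕ} {f : Fˣ} (hf : f ∈ divU k F n) : e k n f f = 0 := by
  rw [e, ← finsum_ord_smul f (sg k)]
  exact finsum_congr fun P => by rw [w_self, Int.mul_ediv_cancel' (hf P)]

theorem e_cU_right (f : Fˣ) (c : kˣ) : e k 1 f (cU F c) = 0 := by
  rw [e, ← finsum_ord_smul f (-Additive.ofMul c)]
  exact finsum_congr fun P => by rw [w_one, ord_cU, lc_cU]; simp

theorem e1_mul_left (f f' g : Fˣ) : e k 1 (f * f') g = e k 1 f g + e k 1 f' g :=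
  e_mul_left one_ne_zero g (mem_divU_one _) (mem_divU_one _)

theorem e1_mul_right (f g g' : Fˣ) : e k 1 f (g * g') = e k 1 f g + e k 1 f g' :=
  e_mul_right one_ne_zero f (mem_divU_one _) (mem_divU_one _)

theorem e_linear (t u : Fˣ) (a : k) (h : (u : F) = t - algebraMap k F a) : e k 1 t u = 0 := by
  by_cases ha : a = 0
  · have : u = t := by ext; rw [h, ha, map_zero, sub_zero]
    rw [this]
    exact e_self (mem_divU_one t)
  let c : kˣ := Units.mk0 a ha
  have ha' : algebraMap k F a ≠ 0 := by rwa [Ne, map_eq_zero]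
  have h1 : e k 1 (t / cU F c) (u / cU F (-c)) = 0 := by
    rw [e, finsum_congr (g := fun _ => 0) fun P => w_steinberg P ?_]
    · exact finsum_zero
    · rw [Units.val_div_eq_div_val, Units.val_div_eq_div_val, h, cU_val, cU_val]
      simp only [c, Units.val_neg, Units.val_mk0, map_neg]
      field_simp
      ring
  rw [div_eq_mul_inv, div_eq_mul_inv, ← map_inv, ← map_inv, e1_mul_left, e1_mul_right,
    e_cU_right, e_skew 1 _ (cU F c⁻¹), e_cU_right] at h1
  simpa using h1

theorem e_aeval (t : Fˣ) (n : ℕ) : ∀ (r : k[X]) (u : Fˣ), r.natDegree = n →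
    (u : F) = aeval (t : F) r → e k 1 t u = 0 := by
  have : IsAlgClosed k := CFF.ac F
  induction n with
  | zero =>
    intro r u hd h
    rw [eq_C_of_natDegree_eq_zero hd, aeval_C] at h
    have h0 : r.coeff 0 ≠ 0 := by
      intro h0
      rw [h0, map_zero] at h
      exact u.ne_zero h
    have : u = cU F (Units.mk0 _ h0) := Units.ext h
    rw [this, e_cU_right]
  | succ n ih =>
    intro r u hd h
    have hr0 : r ≠ 0 := by
      rintro rfl
      simp at hd
    obtain ⟨a, ha⟩ := IsAlgClosed.exists_root r (by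
      rw [degree_eq_natDegree hr0, hd]; exact_mod_cast Nat.succ_ne_zero n)
    obtain ⟨q, hq⟩ := dvd_iff_isRoot.2 ha
    have hq0 : q ≠ 0 := by
      rintro rfl
      exact hr0 (by rw [hq, mul_zero])
    have hqd : q.natDegree = n := by
      have := natDegree_mul (X_sub_C_ne_zero a) hq0
      rw [← hq, hd, natDegree_X_sub_C] at this
      omega
    rw [hq, map_mul, map_sub, aeval_X, aeval_C] at h
    have h1 := u.ne_zero
    rw [h] at h1
    have h2 : u = Units.mk0 _ (left_ne_zero_of_mul h1) * Units.mk0 _ (right_ne_zero_of_mul h1) :=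
      Units.ext h
    rw [h2, e1_mul_right, e_linear t (Units.mk0 _ (left_ne_zero_of_mul h1)) a rfl,
      ih q (Units.mk0 _ (right_ne_zero_of_mul h1)) hqd rfl, add_zero]

end one

section ext

variable {k K L : Type u} [Field k] [Field K] [Field L] [Algebra k K] [Algebra k L]
  [Algebra K L] [IsScalarTower k K L] [CFF k K] [CFF k L] [FiniteDimensional K L]

variable (K) in
theorem finsum_fib {A : Type*} [AddCommGroup A] (φ : Plk k L → A)
    (h : Function.HasFiniteSupport φ) :
    ∑ᶠ Q, φ Q = ∑ᶠ P : Plk k K, ∑ Q ∈ fib L P, φ Q := by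
  classical
  set T := Set.Finite.toFinset h with hT
  have hT' : ∀ Q, φ Q ≠ 0 → Q ∈ T := fun Q hQ => (Set.Finite.mem_toFinset h).2 hQ
  rw [finsum_eq_sum_of_support_subset (s := T.image (down K))
    (fun P : Plk k K => ∑ Q ∈ fib L P, φ Q) fun P hP => ?_,
    ← Finset.sum_biUnion,
    finsum_eq_sum_of_support_subset (s := (T.image (down K)).biUnion (fib L)) _ fun Q hQ => ?_]
  · rw [Finset.mem_coe, Finset.mem_biUnion]
    exact ⟨down K Q, Finset.mem_image_of_mem _ (hT' Q hQ), mem_over.2 rfl⟩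
  · intro P _ P' _ hne
    rw [Function.onFun, Finset.disjoint_left]
    intro Q h1 h2
    exact hne ((mem_over.1 h1).symm.trans (mem_over.1 h2))
  · obtain ⟨Q, hQ, h1⟩ := Finset.exists_ne_zero_of_sum_ne_zero hP
    rw [Finset.mem_coe, Finset.mem_image]
    exact ⟨Q, hT' Q h1, mem_over.1 hQ⟩

theorem e_proj (f : Kˣ) (g : Lˣ) : e k 1 (jU L f) g = e k 1 f (nU K g) := by
  rw [e, e, finsum_fib K _ (w_finite 1 _ _)]
  exact finsum_congr fun P => (proj P f g).symm

end ext

section two

variable {k F : Type u} [Field k] [Field F] [Algebra k F] [CFF k F]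

/-- **Weil reciprocity** -/
theorem weil (f g : Fˣ) : e k 1 f g = 0 := by
  by_cases hc : ∃ a : k, (f : F) = algebraMap k F a
  · obtain ⟨a, ha⟩ := hc
    have h0 : a ≠ 0 := by
      rintro rfl
      rw [map_zero] at ha
      exact f.ne_zero ha
    have : f = cU F (Units.mk0 a h0) := Units.ext ha
    rw [this, e_skew, e_cU_right, neg_zero]
  push Not at hc
  have : CFF k k⟮(f : F)⟯ := cff_adjoin hc
  have : FiniteDimensional k⟮(f : F)⟯ F := (finite_of_notMem hc).2
  have ht : AdjoinSimple.gen k (f : F) ≠ 0 := fun h => gen_nc hc 0 (by rw [h, map_zero])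
  let t : (k⟮(f : F)⟯)ˣ := Units.mk0 _ ht
  have h1 : f = jU F t := Units.ext rfl
  have key : ∀ z : (k⟮(f : F)⟯)ˣ, e k 1 t z = 0 := by
    intro z
    obtain ⟨r, s, hrs⟩ := (mem_adjoin_simple_iff k (α := (f : F)) (z : k⟮(f : F)⟯)).1
      (z : k⟮(f : F)⟯).2
    have h2 : (z : k⟮(f : F)⟯) = aeval (t : k⟮(f : F)⟯) r / aeval (t : k⟮(f : F)⟯) s := by
      apply (algebraMap k⟮(f : F)⟯ F).injective
      rw [map_div₀, ← aeval_algebraMap_apply, ← aeval_algebraMap_apply]
      exact hrs
    have h3 := z.ne_zero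
    rw [h2] at h3
    have h4 := (div_ne_zero_iff.1 h3).1
    have h5 := (div_ne_zero_iff.1 h3).2
    have h6 : z * Units.mk0 _ h5 = Units.mk0 _ h4 := by
      exact Units.ext ((eq_div_iff h5).1 h2)
    have h7 := e1_mul_right (k := k) t z (Units.mk0 _ h5)
    rw [h6, e_aeval t _ r (Units.mk0 _ h4) rfl rfl, e_aeval t _ s (Units.mk0 _ h5) rfl rfl,
      add_zero] at h7
    exact h7.symm
  calc e k 1 f g = e k 1 (jU F t) g := by rw [← h1]
    _ = 0 := by rw [e_proj, key]

theorem e_pow_eq_zero {n : ℕ} (hn : n ≠ 0) {f : Fˣ} (hf : f ∈ divU k F n) (h : Fˣ) :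
    e k n f (h ^ n) = 0 := by
  have h1 := e_level (k := k) hn one_ne_zero (f := f) (g := h) (by rwa [mul_one]) (mem_divU_one h)
  rwa [mul_one, weil] at h1

theorem e_powU_right {n : ℕ} (hn : n ≠ 0) {f g : Fˣ} (hf : f ∈ divU k F n)
    (hg : g ∈ powU F n) : e k n f g = 0 := by
  obtain ⟨h, rfl⟩ := mem_powU.1 hg
  exact e_pow_eq_zero hn hf h

theorem e_powU_left {n : ℕ} (hn : n ≠ 0) {f g : Fˣ} (hf : f ∈ powU F n)
    (hg : g ∈ divU k F n) : e k n f g = 0 := by
  rw [e_skew, e_powU_right hn hg hf, neg_zero]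

/-- the values are `n`-th roots of unity -/
theorem nsmul_e {n : ℕ} (hn : n ≠ 0) {f g : Fˣ} (hf : f ∈ divU k F n) (hg : g ∈ divU k F n) :
    n • e k n f g = 0 := by
  rw [← e_pow_right hn f hg, e_pow_eq_zero hn hf]

theorem divU_mul_le (m n : ℕ) : divU k F (m * n) ≤ divU k F n := fun f hf P =>
  (show (n : ℤ) ∣ ((m * n : ℕ) : ℤ) from Dvd.intro_left (m : ℤ) (by push_cast; ring)).trans (hf P)

theorem nsmul_e_level {m n : ℕ} (hm : m ≠ 0) (hn : n ≠ 0) {f g : Fˣ}
    (hf : f ∈ divU k F (m * n)) (hg : g ∈ divU k F (m * n)) :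
    m • e k (m * n) f g = e k n f g := by
  rw [← e_pow_right (mul_ne_zero hm hn) f hg, e_level hm hn hf (divU_mul_le m n hg)]

/-- the classical formula for disjoint supports: `e(f, g) = f(B) / g(A)` -/
theorem e_disj {n : ℕ} (hn : n ≠ 0) {f g : Fˣ} {A B : Plk k F →₀ ℤ}
    (hA : n • A = dv k (f : F)) (hB : n • B = dv k (g : F)) (h : ∀ P, A P = 0 ∨ B P = 0) :
    (((e k n f g).toMul : kˣ) : k) =
      (B.prod fun P m => vl P (f : F) ^ m) / A.prod fun P m => vl P (g : F) ^ m := by
  classical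
  have ha : ∀ P, ord P (f : F) = n * A P := fun P => by
    rw [← dv_apply, ← hA, Finsupp.smul_apply, nsmul_eq_mul]
  have hb : ∀ P, ord P (g : F) = n * B P := fun P => by
    rw [← dv_apply, ← hB, Finsupp.smul_apply, nsmul_eq_mul]
  rw [e_eq_sum n (S := A.support ∪ B.support) fun P hP => by
      rw [Finset.mem_union, not_or, Finsupp.notMem_support_iff, Finsupp.notMem_support_iff] at hP
      rw [ha, hb, hP.1, hP.2]; simp,
    Finsupp.prod_of_support_subset B Finset.subset_union_right _ (by simp),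
    Finsupp.prod_of_support_subset A Finset.subset_union_left _ (by simp),
    ← Finset.prod_div_distrib, toMul_sum, Units.coe_prod]
  refine Finset.prod_congr rfl fun P _ => ?_
  rw [w_eq hn (ha P) (hb P)]
  rcases h P with h1 | h1
  · have h2 : ord P (f : F) = 0 := by rw [ha, h1, mul_zero]
    rw [h1, vl_eq (lc_val h2)]
    simp
  · have h2 : ord P (g : F) = 0 := by rw [hb, h1, mul_zero]
    rw [h1, vl_eq (lc_val h2)]
    simp

end two

end P027M.K
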